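import Vale.Agent.P141.H498.En4

/-!
# P141, line W, EN4: the family form of the profile engine (312's display) in the pair weight
-/

namespace Vale.Agent.P141.H498

open Finset
open Vale.Agent.P141.H922 (n2 n4 nN pw3 n2_nonneg n4_nonneg)
open Vale.Agent.P141.PL.H315 (e12 e13 e23 Tri)

noncomputable section

/-- `log (2 + x) ≤ 2 (1 + log⁺ x)` -/
theorem log_two_add_le {x : ℝ} (hx : 0 ≤ x) : Real.log (2 + x) ≤ 2 * (1 + plog x) := by
  unfold plog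
  rcases le_total x 1 with h | h
  · have h1 : Real.log (2 + x) ≤ (2 + x) - 1 := Real.log_le_sub_one_of_pos (by linarith)
    have h2 : 0 ≤ max 0 (Real.log x) := le_max_left _ _
    linarith
  · have hx0 : 0 < x := by linarith
    have h1 : Real.log (2 + x) ≤ Real.log (3 * x) :=
      Real.log_le_log (by linarith) (by linarith)
    have h2 : Real.log (3 * x) = Real.log 3 + Real.log x :=
      Real.log_mul (by norm_num) hx0.ne'
    have h3 : Real.log 3 ≤ 3 - 1 := Real.log_le_sub_one_of_pos (by norm_num)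
    have h4 : Real.log x ≤ max 0 (Real.log x) := le_max_right _ _
    have h5 : 0 ≤ Real.log x := Real.log_nonneg h
    linarith

/-- 312's display -/
def disp (gA gB gC dA dB dC : ℝ) : ℝ :=
  √√(gA * gB) * √dC * Real.log (2 + min (dA ^ 2 / gA) (dB ^ 2 / gB) * gC / dC ^ 2)

theorem disp_le {gA gB gC dA dB dC : ℝ} (hA : 0 < gA) (hB : 0 < gB) (hC : 0 < gC) :
    disp gA gB gC dA dB dC ≤ 2 * prf gA gB gC dA dB dC := by
  unfold disp prf
  have hx0 : 0 ≤ min (dA ^ 2 / gA) (dB ^ 2 / gB) * gC / dC ^ 2 := by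
    refine div_nonneg (mul_nonneg (le_min ?_ ?_) hC.le) (sq_nonneg _) <;> positivity
  have h1 := log_two_add_le hx0
  have e1 : √√(gA * gB) = gA ^ (1 / 4 : ℝ) * gB ^ (1 / 4 : ℝ) := by
    rw [Real.sqrt_eq_rpow, Real.sqrt_eq_rpow, ← Real.rpow_mul (by positivity),
      Real.mul_rpow hA.le hB.le]
    norm_num
  have e2 : min (dA ^ 2 / gA) (dB ^ 2 / gB) / (dC ^ 2 / gC) =
      min (dA ^ 2 / gA) (dB ^ 2 / gB) * gC / dC ^ 2 := by
    rw [div_div_eq_mul_div]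
  rw [e1, Real.sqrt_eq_rpow, e2]
  by_cases hd : 0 ≤ dC
  · calc _ ≤ gA ^ (1 / 4 : ℝ) * gB ^ (1 / 4 : ℝ) * dC ^ (1 / 2 : ℝ) *
          (2 * (1 + plog (min (dA ^ 2 / gA) (dB ^ 2 / gB) * gC / dC ^ 2))) :=
          mul_le_mul_of_nonneg_left h1 (by positivity)
      _ = _ := by ring
  · have hd' : dC ^ (1 / 2 : ℝ) = 0 := by
      rw [← Real.sqrt_eq_rpow]
      exact Real.sqrt_eq_zero_of_nonpos (by linarith)
    rw [hd']
    simp

/-- **EN4, family form**: the display for all positive majorants of the energies gives the pair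
weight. -/
theorem en4_fam {T κ θ V c tA tB eA eB eC n12 m12 n13 m13 n23 m23 GA GB GC DA DB DC : ℝ}
    (hθ : 0 < θ) (hθ' : θ ≤ 1 / 4) (hκ : 0 ≤ κ) (hV : 0 ≤ V) (hc : 0 ≤ c) (htA : 0 ≤ tA)
    (htB : 0 ≤ tB) (heA : 0 ≤ eA) (heB : 0 ≤ eB) (heC : 0 ≤ eC)
    (h12 : 0 ≤ n12) (k12 : 0 ≤ m12) (h13 : 0 ≤ n13) (k13 : 0 ≤ m13) (h23 : 0 ≤ n23)
    (k23 : 0 ≤ m23)
    (pGA : 0 ≤ GA) (pGB : 0 ≤ GB) (pGC : 0 ≤ GC) (pDA : 0 ≤ DA) (pDB : 0 ≤ DB) (pDC : 0 ≤ DC)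
    (h : ∀ gA gB gC dA dB dC : ℝ, GA < gA → GB < gB → GC < gC → DA < dA → DB < dB → DC < dC →
      T ≤ κ * disp gA gB gC dA dB dC)
    (hGA : GA ≤ V * (c * (tA ^ 2 * eA * (n12 * m12) ^ 2)))
    (hGA' : GA ≤ V * (c * (eA ^ 2 * (n12 * m12) ^ 2)))
    (hGB : GB ≤ V * (c * (tB ^ 2 * eB * (n13 * m13) ^ 2)))
    (hGB' : GB ≤ V * (c * (eB ^ 2 * (n13 * m13) ^ 2)))
    (hGC : GC ≤ V * (c * (eC ^ 2 * (n23 * m23) ^ 2)))
    (hDA : DA ≤ V * (c * (eA * n12 ^ 2))) (hDB : DB ≤ V * (c * (eB * n13 ^ 2)))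
    (hDC : DC ≤ V * (c * (eC * n23 ^ 2))) :
    T ≤ 2 * κ * (1 + θ⁻¹) * c *
      ((tA * tB) ^ (1 / 2 - θ) * (eA * eB) ^ (1 / 4 + θ / 2) * eC ^ (1 / 2 : ℝ)) *
        (V * pwn n12 m12 n13 m13 n23 m23) := by
  have h1 : T ≤ 2 * κ * two θ GA GB GC DA DB DC := by
    refine le_two hθ hθ' (by positivity) pGA pGB pGC pDA pDB pDC ?_
    intro gA gB gC dA dB dC i1 i2 i3 i4 i5 i6
    refine (h _ _ _ _ _ _ i1 i2 i3 i4 i5 i6).trans ?_
    refine (mul_le_mul_of_nonneg_left (disp_le (by linarith) (by linarith) (by linarith))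
      hκ).trans (le_of_eq ?_)
    ring
  refine h1.trans ((mul_le_mul_of_nonneg_left (two_le hθ hθ' hV hc htA htB heA heB heC h12 k12
    h13 k13 h23 k23 pGA pGB pGC pDA pDB pDC hGA hGA' hGB hGB' hGC hDA hDB hDC)
    (by positivity)).trans (le_of_eq ?_))
  ring

/-- the pair weight is symmetric -/
theorem pwn_swap (n12 m12 n13 m13 n23 m23 : ℝ) :
    pwn n13 m13 n12 m12 n23 m23 = pwn n12 m12 n13 m13 n23 m23 := by
  unfold pwn; ring

/-- the pair weight is symmetric -/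
theorem pwn_swap' (n12 m12 n13 m13 n23 m23 : ℝ) :
    pwn n12 m12 n23 m23 n13 m13 = pwn n12 m12 n13 m13 n23 m23 := by
  unfold pwn; ring

/-- the six norms of an atom -/
theorem pwn_eq (Q : Finset (ℤ × ℤ × ℤ)) (u : Tri) :
    pwn (n2 Q (e12 u.1)) (n4 Q (e12 u.1)) (n2 Q (e13 u.2.1)) (n4 Q (e13 u.2.1))
      (n2 Q (e23 u.2.2)) (n4 Q (e23 u.2.2)) = pw3 Q u := rfl

end

end Vale.Agent.P141.H498
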