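import Vale.Agent.P141.H48.Gen1
import Vale.Agent.P141.H784.EngF
import Vale.Agent.P141.H414.En8
import Vale.Agent.P141.H205.Cmp
import Vale.Agent.P141.H444.PayS
import Vale.Agent.P141.H769.EN3
import Vale.Agent.P141.H206.EN2

/-!
# P141, line W, squad EN: assembly of (E)

`pos2_asm`, `enOut_asm`, `enL_asm`: (E) in the pair weight, from the generations `GenSt`;
`pos2`, `enOut`, `enL`: no hypothesis.
-/

namespace Vale.Agent.P141.H498

open Vale.Agent.P141.H48 (Pos2 GenSt EngF MoUni MoTri pos2_of cG cG_nonneg Lam0 one_le_Lam0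
  genSt)
open Vale.Agent.P141.H444 (EnOut EnL enL_of_en)

noncomputable section

theorem moTri : MoTri := fun _ _ _ _ _ he h => H206.mo4_of_l he h

theorem moUni : MoUni 240000 := fun _ _ _ _ _ _ ht he h hU => H206.mo4_of_un ht he h hU

/-- the constant of the engine -/
def cEng : ℝ := 2 * (2160 * 4400)

theorem cEng_nonneg : 0 ≤ cEng := by unfold cEng; norm_num

/-- (E) in the position of role `0`. -/
theorem pos2_asm {Λ : ℝ} (hΛ : 1 ≤ Λ) (hG : GenSt Λ) {ε cP : ℝ} (hε : 0 < ε) (hε' : ε ≤ 1 / 4)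
    (hcP : 0 ≤ cP) : Pos2 (2 * cG Λ cP 240000 cEng ε) ε cP :=
  pos2_of hΛ cEng_nonneg (by norm_num) hG H784.engF (H769.pthSt Λ) (H769.ownSt hΛ) moUni moTri hε
    hε' hcP

/-- the constant of (E) -/
def cOut (Λ ε : ℝ) : ℝ := 2 * cG Λ 52 240000 cEng ε * (2 ^ (7 + 2)) ^ (5 / 2 : ℝ)

theorem cOut_nonneg {Λ ε : ℝ} (hε : 0 < ε) : 0 ≤ cOut Λ ε := by
  have h := cG_nonneg (Λ := Λ) (cP := 52) (K0 := 240000) (C := cEng) (by norm_num) (by norm_num)
    cEng_nonneg hε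
  unfold cOut
  positivity

/-- (E), all the roles, all the positions of the `L²` slot, static companions on the alive cells. -/
theorem enOut_asm {Λ : ℝ} (hΛ : 1 ≤ Λ) (hG : GenSt Λ) {ε : ℝ} (hε : 0 < ε) (hε' : ε ≤ 1 / 4) :
    EnOut (cOut Λ ε) ε := by
  intro σ al hal n f i a b c hd ta ea tb eb ec hta hta2 htb htb2 hec Ea Ua Eb Ub Ec o ho K hK
  exact H414.costR_en (T := 2 ^ (7 + 2)) (by norm_num) (H205.cmpSt_holds le_rfl)
    (pos2_asm hΛ hG hε hε' (by norm_num)) hal hd hta htb hta2 htb2 hec Ua Ub Ea Eb Ec ho hK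

/-- (E) at the level one. -/
theorem enL_asm {Λ : ℝ} (hΛ : 1 ≤ Λ) (hG : GenSt Λ) : ∃ C, 0 ≤ C ∧ EnL C :=
  ⟨_, mul_nonneg (cOut_nonneg (Λ := Λ) (ε := 1 / 4) (by norm_num)) (by positivity),
    enL_of_en (enOut_asm hΛ hG (by norm_num) le_rfl)⟩

/-- **(E) in the position of role `0`.** -/
theorem pos2 {ε : ℝ} (hε : 0 < ε) (hε' : ε ≤ 1 / 4) :
    Pos2 (2 * cG Lam0 52 240000 cEng ε) ε 52 :=
  pos2_asm one_le_Lam0 genSt hε hε' (by norm_num)

/-- **(E), static companions on the alive cells, all the roles.** -/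
theorem enOut {ε : ℝ} (hε : 0 < ε) (hε' : ε ≤ 1 / 4) : EnOut (cOut Lam0 ε) ε :=
  enOut_asm one_le_Lam0 genSt hε hε'

/-- **(E) at the level one.** -/
theorem enL : ∃ C, 0 ≤ C ∧ EnL C := enL_asm one_le_Lam0 genSt

end

end Vale.Agent.P141.H498
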