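import Vale.Agent.P141.H498.EnCF
import Vale.Agent.P141.H501.StepOf

/-!
# P141, scale invariant version: CE from the fourth moments of one function

* `CFat US b KE M`: on every region, a function with local energy `≤ KE`, `KE`-uniform for the
  system `US a`, has fourth moments `≤ M |u|₂² |u|₄²` for every real gauge `u`, on every alive cell,
  every cube of its scale, in every slicing variable;
* `CFOut`: the exponents for the systems `Ex.T`; `ceOut_of_cfOut : CFOut → H501.CEOut`.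
-/

namespace Vale.Agent.P141.H498

open Finset
open Vale.Agent.P141.PL (Pt)
open Vale.Agent.P141.PL.H315 (le cube3 Tri)
open Vale.Agent.P141.PL.H95 (gr shf)
open Vale.Agent.P141.PL.H318
open Vale.Agent.P141.H347.Tr (CostR)
open Vale.Agent.P141.H347.Gs (Ex e2 e2_pos e2_mul e2_le)
open Vale.Agent.P141.H782 (gb LSys LSys.S LSys.w used)
open Vale.Agent.P141.H8 (Rgn En Un)
open Vale.Agent.P141.H48 (kl prE)
open Vale.Agent.P141.H922 (wP wP_nonneg)
open Vale.Agent.P141.H414 (jf cf)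
open Vale.Agent.P141.H501 (CEat CEOut)
open Vale.Agent.P141.H444 (SU alR alv_alR esl_alR esl_mono usl_of_su costR_mono TDat.sys)

noncomputable section

/-- **What remains of CE, one level**: fourth moments of the gauged slices of ONE function. -/
def CFat {n : ℕ} {b : Bool} {κ1 : Type*} (US : Fin 4 → CSys (gb n b) κ1) (KE M : ℝ) : Prop :=
  ∀ (Λ : ℕ) (x : ℤ) (ud : ℕ → ℤ → Prop), Rgn (gb n b) ud Λ x ud → ud Λ x →
    ∀ (a : Fin 4) (h : ℤ → ℝ), En (gb n b) ud h KE → Un (US a) KE ud h →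
    ∀ i p, jf i p = a → MSl 7 (shf (n + 7) b) (alR Λ ud) Λ (cf i p) M h

/-- **CF**: exponents `g ≤ c < d / 2`, `a`, `a'` of the systems and the gain `d`. -/
def CFOut : Prop := ∃ g c a a' d : ℝ, 0 < g ∧ g ≤ c ∧ c ≤ 1 ∧ 0 ≤ a ∧ 0 ≤ a' ∧ c < d / 2 ∧
  ∀ e : Ex, e.g = g → e.c = c → e.a = a → e.a' = a' → ∃ C : ℝ, 0 ≤ C ∧
    ∀ (n : ℕ) (b : Bool) (j : ℕ), 1 ≤ j →
      CFat (b := b) ((e.T n).sys.S j b) e.K (C * e2 (-(2 + d)) j)

theorem e2_rpow (x y : ℝ) (j : ℕ) : e2 x j ^ y = e2 (x * y) j := by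
  unfold Vale.Agent.P141.H347.Gs.e2
  rw [← Real.rpow_mul two_pos.le]
  congr 1
  ring

theorem sqrt_e2 (x : ℝ) (j : ℕ) : √(e2 x j) = e2 (x / 2) j := by
  rw [Real.sqrt_eq_rpow, e2_rpow]
  congr 1
  ring

/-- the constant -/
def cTop (A C ε : ℝ) : ℝ :=
  23 * cCF ε * ((√(C / (A + 1)) * A) ^ (1 / 2 - ε) * ((A + 1) * (A + A ^ 2)) ^ (1 / 4 + ε / 2))

theorem cTop_nonneg {A C ε : ℝ} (hA : 0 ≤ A) (hε : 0 < ε) : 0 ≤ cTop A C ε := by
  have h1 := cCF_nonneg hε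
  have h2 := Real.rpow_nonneg (mul_nonneg (Real.sqrt_nonneg (C / (A + 1))) hA) (1 / 2 - ε)
  have h3 := Real.rpow_nonneg (by positivity : 0 ≤ (A + 1) * (A + A ^ 2)) (1 / 4 + ε / 2)
  unfold cTop
  positivity

/-- the price -/
theorem prE_top {A C ε ez d c G : ℝ} (hA : 0 ≤ A) (j : ℕ)
    (hG : 1 + G ≤ (2 + d / 2 - c) * (1 / 2 - ε)) :
    prE ε (√(C / (A + 1)) * e2 (-(1 + d / 2)) j) (A * e2 (-(1 - c)) j) (A + 1) (A + A ^ 2) ez ≤
      ((√(C / (A + 1)) * A) ^ (1 / 2 - ε) * ((A + 1) * (A + A ^ 2)) ^ (1 / 4 + ε / 2)) *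
        (e2 (-(1 + G)) j * ez ^ (1 / 2 : ℝ)) := by
  have hs := Real.sqrt_nonneg (C / (A + 1))
  have e1 : √(C / (A + 1)) * e2 (-(1 + d / 2)) j * (A * e2 (-(1 - c)) j) =
      √(C / (A + 1)) * A * e2 (-(2 + d / 2 - c)) j := by
    have h := e2_mul (-(1 + d / 2)) (-(1 - c)) j
    rw [show -(1 + d / 2) + -(1 - c) = -(2 + d / 2 - c) by ring] at h
    rw [← h]
    ring
  unfold prE
  rw [e1, Real.mul_rpow (mul_nonneg hs hA) (e2_pos _ _).le, e2_rpow]
  have h1 : e2 (-(2 + d / 2 - c) * (1 / 2 - ε)) j ≤ e2 (-(1 + G)) j := e2_le (by linarith) j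
  have h2 := Real.rpow_nonneg (mul_nonneg hs hA) (1 / 2 - ε)
  have h3 := Real.rpow_nonneg (by positivity : 0 ≤ (A + 1) * (A + A ^ 2)) (1 / 4 + ε / 2)
  by_cases hez : 0 ≤ ez ^ (1 / 2 : ℝ)
  · calc _ ≤ (√(C / (A + 1)) * A) ^ (1 / 2 - ε) * e2 (-(1 + G)) j *
          ((A + 1) * (A + A ^ 2)) ^ (1 / 4 + ε / 2) * ez ^ (1 / 2 : ℝ) := by gcongr
      _ = _ := by ring
  · rw [← Real.sqrt_eq_rpow] at hez
    exact absurd (Real.sqrt_nonneg ez) hez

/-- **`CEat` from `CFat`.** -/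
theorem ceAt_of_cfAt {n j : ℕ} {b : Bool} {κ1 : Type*} {US : Fin 4 → CSys (gb n b) κ1}
    {o : ℤ} (ho : o = 1 ∨ o = -1) {A C c d G ε : ℝ} (hA : 0 ≤ A) (hC : 0 ≤ C) (hc : c ≤ 1)
    (hε : 0 < ε) (hε' : ε ≤ 1 / 4) (hG : 1 + G ≤ (2 + d / 2 - c) * (1 / 2 - ε))
    (h : CFat US A (C * e2 (-(2 + d)) j)) :
    CEat US o A (A * e2 (-(1 - c)) j) (cTop A C ε * e2 (-(1 + G)) j) := by
  intro m a c' d' hn Λ x ud hR hx f hEa hUa hEc hUc ez hez hEd K hK
  have hA1 : (0 : ℝ) < A + 1 := by linarith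
  have hta : 0 ≤ √(C / (A + 1)) * e2 (-(1 + d / 2)) j :=
    mul_nonneg (Real.sqrt_nonneg _) (e2_pos _ _).le
  have hM : (√(C / (A + 1)) * e2 (-(1 + d / 2)) j) ^ 2 * (A + 1) = C * e2 (-(2 + d)) j := by
    rw [mul_pow, Real.sq_sqrt (by positivity), sq (e2 (-(1 + d / 2)) j), e2_mul,
      show -(1 + d / 2) + -(1 + d / 2) = -(2 + d) by ring]
    field_simp
  have hone : e2 (-(1 - c)) j ≤ 1 := by
    have h1 : e2 (-(1 - c)) j ≤ e2 0 j := e2_le (by linarith) j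
    have h2 : e2 0 j = 1 := by unfold Vale.Agent.P141.H347.Gs.e2; simp
    linarith
  have htb : 0 ≤ A * e2 (-(1 - c)) j := mul_nonneg hA (e2_pos _ _).le
  have htb2 : (A * e2 (-(1 - c)) j) ^ 2 ≤ A + A ^ 2 := by
    have h1 : A * e2 (-(1 - c)) j ≤ A := mul_le_of_le_one_right hA hone
    have h2 := pow_le_pow_left₀ htb h1 2
    linarith
  have key := costR_cf hε hε' (alv_alR hR) hn hta htb hA1.le htb2 hez
    (esl_mono (by linarith : A ≤ A + 1) (esl_alR hEa))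
    (esl_mono (by nlinarith : A ≤ A + A ^ 2) (esl_alR hEc)) (esl_alR hEd)
    (fun p hp => by
      rw [hM]
      exact h Λ x ud hR hx a (f a) hEa hUa m p hp)
    (usl_of_su hUc) ho hK
  refine costR_mono (fun K p u => wP_nonneg zero_le_one _ _) ?_ key
  have h1 := prE_top (C := C) (ε := ε) (ez := ez) hA j hG
  have h2 : 0 ≤ 23 * cCF ε := by
    have := cCF_nonneg hε
    positivity
  have h3 := mul_le_mul_of_nonneg_left h1 h2
  refine h3.trans (le_of_eq ?_)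
  unfold cTop
  rw [Real.sqrt_eq_rpow ez]
  ring

/-- **CE from the fourth moments of one function.** -/
theorem ceOut_of_cfOut (h : CFOut) : CEOut := by
  obtain ⟨g, c, a, a', d, hg, hgc, hc, ha, ha', hd, h⟩ := h
  have hc0 : 0 < c := hg.trans_le hgc
  have hG : 0 < (d / 4 - c / 2) / 2 := by linarith
  have hd0 : 0 < d := by linarith
  set G := (d / 4 - c / 2) / 2 with hGdef
  set ε := min (1 / 4) (G / (2 + d / 2)) with hεdef
  have hε : 0 < ε := lt_min (by norm_num) (by positivity)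
  have hε' : ε ≤ 1 / 4 := min_le_left _ _
  have hε2 : ε * (2 + d / 2) ≤ G := by
    have h1 : ε ≤ G / (2 + d / 2) := min_le_right _ _
    rwa [le_div_iff₀ (by positivity)] at h1
  refine ⟨g, c, a, a', G, hg, hgc, hc, ha, ha', hG, fun e h1 h2 h3 h4 => ?_⟩
  obtain ⟨C, hC, hCF⟩ := h e h1 h2 h3 h4
  refine ⟨cTop e.K C ε, cTop_nonneg e.K_pos.le hε, fun n b j o hj ho => ?_⟩
  have key := ceAt_of_cfAt (c := c) (G := G) ho e.K_pos.le hC hc hε hε'
    (by nlinarith [mul_pos hε hc0]) (hCF n b j hj)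
  rw [← h2] at key
  exact key

end

end Vale.Agent.P141.H498
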