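import Vale.Agent.P141.H922.PairW

/-!
# P141, line W, EN4 (numbers): Hölder for products of powers, the logarithm, the pair weight
-/

namespace Vale.Agent.P141.H498

open Finset

noncomputable section

/-- **Hölder's inequality** for products of powers, weights of sum `1`. -/
theorem sum_prod_rpow_le {ι κ : Type*} (s : Finset ι) (t : Finset κ) {w : κ → ℝ}
    (hw : ∀ j ∈ t, 0 ≤ w j) (hw1 : ∑ j ∈ t, w j = 1) {f : κ → ι → ℝ}
    (hf : ∀ j ∈ t, ∀ i ∈ s, 0 ≤ f j i) :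
    ∑ i ∈ s, ∏ j ∈ t, f j i ^ w j ≤ ∏ j ∈ t, (∑ i ∈ s, f j i) ^ w j := by
  have hS : ∀ j ∈ t, 0 ≤ ∑ i ∈ s, f j i := fun j hj => sum_nonneg (hf j hj)
  have hR : 0 ≤ ∏ j ∈ t, (∑ i ∈ s, f j i) ^ w j :=
    prod_nonneg fun j hj => Real.rpow_nonneg (hS j hj) _
  by_cases h0 : ∃ j ∈ t, w j ≠ 0 ∧ ∑ i ∈ s, f j i = 0
  · obtain ⟨j, hj, hwj, hSj⟩ := h0
    have h1 : ∀ i ∈ s, f j i = 0 := (sum_eq_zero_iff_of_nonneg (hf j hj)).1 hSj
    refine le_trans (le_of_eq ?_) hR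
    refine sum_eq_zero fun i hi => ?_
    exact prod_eq_zero hj (by rw [h1 i hi, Real.zero_rpow hwj])
  · push Not at h0
    have hfac : ∀ i ∈ s, ∏ j ∈ t, f j i ^ w j =
        (∏ j ∈ t, (∑ i ∈ s, f j i) ^ w j) * ∏ j ∈ t, (f j i / ∑ i ∈ s, f j i) ^ w j := by
      intro i hi
      rw [← prod_mul_distrib]
      refine prod_congr rfl fun j hj => ?_
      by_cases hwj : w j = 0
      · rw [hwj, Real.rpow_zero, Real.rpow_zero, Real.rpow_zero, one_mul]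
      · have hpos : 0 < ∑ i ∈ s, f j i := lt_of_le_of_ne (hS j hj) (Ne.symm (h0 j hj hwj))
        rw [← Real.mul_rpow (hS j hj) (div_nonneg (hf j hj i hi) (hS j hj)),
          mul_div_cancel₀ _ hpos.ne']
    rw [sum_congr rfl hfac, ← mul_sum]
    refine mul_le_of_le_one_right hR ?_
    have h2 : ∀ i ∈ s, ∏ j ∈ t, (f j i / ∑ i ∈ s, f j i) ^ w j ≤
        ∑ j ∈ t, w j * (f j i / ∑ i ∈ s, f j i) := fun i hi =>
      Real.geom_mean_le_arith_mean_weighted t w _ hw hw1 fun j hj =>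
        div_nonneg (hf j hj i hi) (hS j hj)
    refine (sum_le_sum h2).trans ?_
    rw [sum_comm, ← hw1]
    refine sum_le_sum fun j hj => ?_
    rw [← mul_sum, ← sum_div]
    exact mul_le_of_le_one_right (hw j hj) (div_self_le_one _)

/-- three factors -/
theorem sum_three_rpow_le {ι : Type*} (s : Finset ι) {a b c : ι → ℝ} (ha : ∀ i ∈ s, 0 ≤ a i)
    (hb : ∀ i ∈ s, 0 ≤ b i) (hc : ∀ i ∈ s, 0 ≤ c i) {p q r : ℝ} (hp : 0 ≤ p) (hq : 0 ≤ q)
    (hr : 0 ≤ r) (h1 : p + q + r = 1) :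
    ∑ i ∈ s, a i ^ p * b i ^ q * c i ^ r ≤
      (∑ i ∈ s, a i) ^ p * (∑ i ∈ s, b i) ^ q * (∑ i ∈ s, c i) ^ r := by
  have h := sum_prod_rpow_le s (univ : Finset (Fin 3)) (w := ![p, q, r])
    (f := fun j i => ![a i, b i, c i] j)
    (by intro j _; fin_cases j <;> simp [hp, hq, hr])
    (by simp [Fin.sum_univ_three, h1])
    (by
      intro j _ i hi
      fin_cases j
      · simpa using ha i hi
      · simpa using hb i hi
      · simpa using hc i hi)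
  simpa [Fin.prod_univ_three] using h

/-- six factors -/
theorem sum_six_rpow_le {ι : Type*} (s : Finset ι) {a b c d e f : ι → ℝ}
    (ha : ∀ i ∈ s, 0 ≤ a i) (hb : ∀ i ∈ s, 0 ≤ b i) (hc : ∀ i ∈ s, 0 ≤ c i)
    (hd : ∀ i ∈ s, 0 ≤ d i) (he : ∀ i ∈ s, 0 ≤ e i) (hf : ∀ i ∈ s, 0 ≤ f i)
    {p q r u v w : ℝ} (hp : 0 ≤ p) (hq : 0 ≤ q) (hr : 0 ≤ r) (hu : 0 ≤ u) (hv : 0 ≤ v)
    (hw : 0 ≤ w) (h1 : p + q + r + u + v + w = 1) :
    ∑ i ∈ s, a i ^ p * b i ^ q * c i ^ r * d i ^ u * e i ^ v * f i ^ w ≤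
      (∑ i ∈ s, a i) ^ p * (∑ i ∈ s, b i) ^ q * (∑ i ∈ s, c i) ^ r * (∑ i ∈ s, d i) ^ u *
        (∑ i ∈ s, e i) ^ v * (∑ i ∈ s, f i) ^ w := by
  have h := sum_prod_rpow_le s (univ : Finset (Fin 6)) (w := ![p, q, r, u, v, w])
    (f := fun j i => ![a i, b i, c i, d i, e i, f i] j)
    (by intro j _; fin_cases j <;> simp [hp, hq, hr, hu, hv, hw])
    (by simp [Fin.sum_univ_six, h1])
    (by
      intro j _ i hi
      fin_cases j
      · simpa using ha i hi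
      · simpa using hb i hi
      · simpa using hc i hi
      · simpa using hd i hi
      · simpa using he i hi
      · simpa using hf i hi)
  simpa [Fin.prod_univ_six] using h

/-- the positive part of the logarithm -/
def plog (x : ℝ) : ℝ := max 0 (Real.log x)

/-- the positive logarithm against a power -/
theorem plog_le_rpow {θ x : ℝ} (hθ : 0 < θ) (hx : 0 ≤ x) : plog x ≤ θ⁻¹ * x ^ θ := by
  unfold plog
  refine max_le (by positivity) ?_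
  refine (Real.log_le_rpow_div hx hθ).trans (le_of_eq ?_)
  rw [div_eq_mul_inv, mul_comm]

/-- the bound of the profile engine at one point -/
def prf (gA gB gC dA dB dC : ℝ) : ℝ :=
  gA ^ (1 / 4 : ℝ) * gB ^ (1 / 4 : ℝ) * dC ^ (1 / 2 : ℝ) *
    (1 + plog (min (dA ^ 2 / gA) (dB ^ 2 / gB) / (dC ^ 2 / gC)))

/-- the second term -/
def snd (θ gA gB gC dA dB dC : ℝ) : ℝ :=
  gA ^ (1 / 4 - θ / 2) * gB ^ (1 / 4 - θ / 2) * dA ^ θ * dB ^ θ * gC ^ θ * dC ^ (1 / 2 - 2 * θ)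

/-- the logarithm is eaten by a power -/
theorem prf_le {θ gA gB gC dA dB dC : ℝ} (hθ : 0 < θ) (hA : 0 < gA) (hB : 0 < gB) (hC : 0 < gC)
    (hdA : 0 < dA) (hdB : 0 < dB) (hdC : 0 < dC) :
    prf gA gB gC dA dB dC ≤ gA ^ (1 / 4 : ℝ) * gB ^ (1 / 4 : ℝ) * dC ^ (1 / 2 : ℝ) +
      θ⁻¹ * snd θ gA gB gC dA dB dC := by
  unfold prf snd
  rw [mul_add, mul_one]
  refine add_le_add le_rfl ?_
  set x : ℝ := min (dA ^ 2 / gA) (dB ^ 2 / gB) / (dC ^ 2 / gC) with hx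
  have hx0 : 0 ≤ x := by
    rw [hx]
    refine div_nonneg (le_min ?_ ?_) ?_ <;> positivity
  have h1 := plog_le_rpow hθ hx0
  have hmin : min (dA ^ 2 / gA) (dB ^ 2 / gB) ≤
      (dA ^ 2 / gA) ^ (1 / 2 : ℝ) * (dB ^ 2 / gB) ^ (1 / 2 : ℝ) := by
    have a0 : 0 ≤ dA ^ 2 / gA := by positivity
    have b0 : 0 ≤ dB ^ 2 / gB := by positivity
    rw [← Real.mul_rpow a0 b0, ← Real.sqrt_eq_rpow]
    refine Real.le_sqrt_of_sq_le ?_
    rw [pow_two]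
    exact mul_le_mul (min_le_left _ _) (min_le_right _ _) (le_min a0 b0) a0
  have h2 : x ^ θ ≤ ((dA ^ 2 / gA) ^ (1 / 2 : ℝ) * (dB ^ 2 / gB) ^ (1 / 2 : ℝ) /
      (dC ^ 2 / gC)) ^ θ := by
    refine Real.rpow_le_rpow hx0 ?_ hθ.le
    rw [hx]
    exact div_le_div_of_nonneg_right hmin (by positivity)
  have h3 : ((dA ^ 2 / gA) ^ (1 / 2 : ℝ) * (dB ^ 2 / gB) ^ (1 / 2 : ℝ) / (dC ^ 2 / gC)) ^ θ =
      gA ^ (-(θ / 2)) * gB ^ (-(θ / 2)) * dA ^ θ * dB ^ θ * gC ^ θ * dC ^ (-(2 * θ)) := by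
    have e1 : ∀ d g : ℝ, 0 < d → 0 < g → ((d ^ 2 / g) ^ (1 / 2 : ℝ)) = d * g ^ (-(1 / 2) : ℝ) := by
      intro d g hd hg
      rw [Real.div_rpow (by positivity) hg.le, ← Real.sqrt_eq_rpow, Real.sqrt_sq hd.le,
        Real.rpow_neg hg.le, div_eq_mul_inv]
    rw [e1 dA gA hdA hA, e1 dB gB hdB hB]
    have e2 : dA * gA ^ (-(1 / 2) : ℝ) * (dB * gB ^ (-(1 / 2) : ℝ)) / (dC ^ 2 / gC) =
        gA ^ (-(1 / 2) : ℝ) * gB ^ (-(1 / 2) : ℝ) * dA * dB * gC * (dC ^ 2)⁻¹ := by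
      field_simp
    have e3 : (dC ^ 2)⁻¹ = dC ^ (-2 : ℝ) := by
      rw [Real.rpow_neg hdC.le, Real.rpow_two]
    rw [e2, e3, Real.mul_rpow (by positivity) (by positivity),
      Real.mul_rpow (by positivity) (by positivity), Real.mul_rpow (by positivity) (by positivity),
      Real.mul_rpow (by positivity) (by positivity), Real.mul_rpow (by positivity) (by positivity),
      ← Real.rpow_mul hA.le, ← Real.rpow_mul hB.le, ← Real.rpow_mul hdC.le]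
    congr 1
    · congr 4
      · congr 1; ring
      · congr 1; ring
    · congr 1; ring
  rw [h3] at h2
  have h4 : plog x ≤ θ⁻¹ * (gA ^ (-(θ / 2)) * gB ^ (-(θ / 2)) * dA ^ θ * dB ^ θ * gC ^ θ *
      dC ^ (-(2 * θ))) := h1.trans (mul_le_mul_of_nonneg_left h2 (by positivity))
  refine (mul_le_mul_of_nonneg_left h4 (by positivity)).trans (le_of_eq ?_)
  have f1 : gA ^ (1 / 4 - θ / 2) = gA ^ (1 / 4 : ℝ) * gA ^ (-(θ / 2)) := by
    rw [← Real.rpow_add hA]; congr 1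
  have f2 : gB ^ (1 / 4 - θ / 2) = gB ^ (1 / 4 : ℝ) * gB ^ (-(θ / 2)) := by
    rw [← Real.rpow_add hB]; congr 1
  have f3 : dC ^ (1 / 2 - 2 * θ) = dC ^ (1 / 2 : ℝ) * dC ^ (-(2 * θ)) := by
    rw [← Real.rpow_add hdC]; congr 1
  rw [f1, f2, f3]
  ring

end

end Vale.Agent.P141.H498
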