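import Mathlib.Analysis.SpecialFunctions.Pow.Continuity
import Vale.Agent.P141.H498.Hold

/-!
# P141, line W, EN4: the average over `x₀` of the profile bound, in the pair weight
-/

namespace Vale.Agent.P141.H498

open Finset Filter Topology

noncomputable section

/-- powers of products -/
theorem sq_rpow {x p : ℝ} (hx : 0 ≤ x) : (x ^ 2) ^ p = x ^ (2 * p) := by
  rw [← Real.rpow_two, ← Real.rpow_mul hx]

theorem mul_rpow2 {a b p : ℝ} (ha : 0 ≤ a) (hb : 0 ≤ b) : (a * b) ^ p = a ^ p * b ^ p :=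
  Real.mul_rpow ha hb

theorem mul_rpow3 {a b c p : ℝ} (ha : 0 ≤ a) (hb : 0 ≤ b) (hc : 0 ≤ c) :
    (a * b * c) ^ p = a ^ p * b ^ p * c ^ p := by
  rw [Real.mul_rpow (mul_nonneg ha hb) hc, Real.mul_rpow ha hb]

/-- the two terms -/
def two (θ gA gB gC dA dB dC : ℝ) : ℝ :=
  gA ^ (1 / 4 : ℝ) * gB ^ (1 / 4 : ℝ) * dC ^ (1 / 2 : ℝ) + θ⁻¹ * snd θ gA gB gC dA dB dC

theorem continuous_two {θ : ℝ} (hθ : 0 < θ) (hθ' : θ ≤ 1 / 4) (gA gB gC dA dB dC : ℝ) :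
    Continuous fun ε : ℝ => two θ (gA + ε) (gB + ε) (gC + ε) (dA + ε) (dB + ε) (dC + ε) := by
  have h : ∀ (x p : ℝ), 0 ≤ p → Continuous fun ε : ℝ => (x + ε) ^ p := fun x p hp =>
    (continuous_const.add continuous_id).rpow_const fun _ => Or.inr hp
  have p1 : (0 : ℝ) ≤ 1 / 4 := by norm_num
  have p2 : (0 : ℝ) ≤ 1 / 2 := by norm_num
  have p3 : (0 : ℝ) ≤ 1 / 4 - θ / 2 := by linarith
  have p4 : (0 : ℝ) ≤ 1 / 2 - 2 * θ := by linarith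
  unfold two snd
  exact (((h gA _ p1).mul (h gB _ p1)).mul (h dC _ p2)).add (continuous_const.mul
    ((((((h gA _ p3).mul (h gB _ p3)).mul (h dA _ hθ.le)).mul (h dB _ hθ.le)).mul
      (h gC _ hθ.le)).mul (h dC _ p4)))

/-- from positive majorants to the energies themselves -/
theorem le_two {θ T K GA GB GC DA DB DC : ℝ} (hθ : 0 < θ) (hθ' : θ ≤ 1 / 4) (hK : 0 ≤ K)
    (hGA : 0 ≤ GA) (hGB : 0 ≤ GB) (hGC : 0 ≤ GC) (hDA : 0 ≤ DA) (hDB : 0 ≤ DB) (hDC : 0 ≤ DC)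
    (h : ∀ gA gB gC dA dB dC : ℝ, GA < gA → GB < gB → GC < gC → DA < dA → DB < dB → DC < dC →
      T ≤ K * prf gA gB gC dA dB dC) : T ≤ K * two θ GA GB GC DA DB DC := by
  have h1 : ∀ ε : ℝ, 0 < ε →
      T ≤ K * two θ (GA + ε) (GB + ε) (GC + ε) (DA + ε) (DB + ε) (DC + ε) := by
    intro ε hε
    refine (h (GA + ε) (GB + ε) (GC + ε) (DA + ε) (DB + ε) (DC + ε) (by linarith)
      (by linarith) (by linarith) (by linarith) (by linarith)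
      (by linarith)).trans (mul_le_mul_of_nonneg_left ?_ hK)
    exact prf_le hθ (by linarith) (by linarith) (by linarith) (by linarith) (by linarith)
      (by linarith)
  have h2 : Tendsto (fun ε : ℝ => K * two θ (GA + ε) (GB + ε) (GC + ε) (DA + ε) (DB + ε)
      (DC + ε)) (𝓝[>] 0) (𝓝 (K * two θ GA GB GC DA DB DC)) := by
    have h3 := (continuous_const.mul (continuous_two hθ hθ' GA GB GC DA DB DC) :
      Continuous fun ε : ℝ => K * two θ (GA + ε) (GB + ε) (GC + ε) (DA + ε) (DB + ε) (DC + ε))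
    have h4 := h3.tendsto 0
    have h5 : (fun ε : ℝ => K * two θ (GA + ε) (GB + ε) (GC + ε) (DA + ε) (DB + ε) (DC + ε)) 0 =
        K * two θ GA GB GC DA DB DC := by
      show K * two θ (GA + 0) (GB + 0) (GC + 0) (DA + 0) (DB + 0) (DC + 0) = _
      simp only [add_zero]
    have h6 := h4.mono_left (nhdsWithin_le_nhds (s := Set.Ioi (0 : ℝ)))
    rw [← h5]
    exact h6
  exact ge_of_tendsto h2 (eventually_nhdsWithin_of_forall fun ε hε => h1 ε hε)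

/-- **the sum over `x₀`** -/
theorem sum_le_two {ι : Type*} (s : Finset ι) {T GA GB GC DA DB DC : ι → ℝ} {θ K : ℝ}
    (hθ : 0 < θ) (hθ' : θ ≤ 1 / 4) (hK : 0 ≤ K)
    (hGA : ∀ i ∈ s, 0 ≤ GA i) (hGB : ∀ i ∈ s, 0 ≤ GB i) (hGC : ∀ i ∈ s, 0 ≤ GC i)
    (hDA : ∀ i ∈ s, 0 ≤ DA i) (hDB : ∀ i ∈ s, 0 ≤ DB i) (hDC : ∀ i ∈ s, 0 ≤ DC i)
    (h : ∀ i ∈ s, ∀ gA gB gC dA dB dC : ℝ, GA i < gA → GB i < gB → GC i < gC → DA i < dA →
      DB i < dB → DC i < dC → T i ≤ K * prf gA gB gC dA dB dC) :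
    ∑ i ∈ s, T i ≤ K * two θ (∑ i ∈ s, GA i) (∑ i ∈ s, GB i) (∑ i ∈ s, GC i) (∑ i ∈ s, DA i)
      (∑ i ∈ s, DB i) (∑ i ∈ s, DC i) := by
  refine (sum_le_sum fun i hi => le_two hθ hθ' hK (hGA i hi) (hGB i hi) (hGC i hi) (hDA i hi)
    (hDB i hi) (hDC i hi) (h i hi)).trans ?_
  rw [← mul_sum]
  refine mul_le_mul_of_nonneg_left ?_ hK
  unfold two snd
  rw [sum_add_distrib, ← mul_sum]
  refine add_le_add ?_ (mul_le_mul_of_nonneg_left ?_ (by positivity))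
  · exact sum_three_rpow_le s hGA hGB hDC (by norm_num) (by norm_num) (by norm_num) (by norm_num)
  · exact sum_six_rpow_le s hGA hGB hDA hDB hGC hDC (by linarith) (by linarith) hθ.le hθ.le hθ.le
      (by linarith) (by ring)

/-- the pair weight as a function of the six norms -/
def pwn (n12 m12 n13 m13 n23 m23 : ℝ) : ℝ :=
  √(n12 * m12) * √(n13 * m13) * n23 + √(n12 * m12) * √(n23 * m23) * n13 +
    √(n13 * m13) * √(n23 * m23) * n12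

theorem pwn_nonneg {n12 m12 n13 m13 n23 m23 : ℝ} (h12 : 0 ≤ n12) (h13 : 0 ≤ n13)
    (h23 : 0 ≤ n23) : 0 ≤ pwn n12 m12 n13 m13 n23 m23 := by
  unfold pwn
  positivity

/-- the powers of the norms in the second term -/
theorem norms_le {θ n12 m12 n13 m13 n23 m23 : ℝ} (hθ : 0 < θ) (hθ' : θ ≤ 1 / 4)
    (h12 : 0 ≤ n12) (k12 : 0 ≤ m12) (h13 : 0 ≤ n13) (k13 : 0 ≤ m13) (h23 : 0 ≤ n23)
    (k23 : 0 ≤ m23) :
    (n12 * m12) ^ (1 / 2 - θ) * n12 ^ (2 * θ) * ((n13 * m13) ^ (1 / 2 - θ) * n13 ^ (2 * θ)) *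
      ((n23 * m23) ^ (2 * θ) * n23 ^ (1 - 4 * θ)) ≤ pwn n12 m12 n13 m13 n23 m23 := by
  set X1 := √(n12 * m12) * √(n13 * m13) * n23 with hX1
  set X2 := √(n12 * m12) * √(n23 * m23) * n13 with hX2
  set X3 := √(n13 * m13) * √(n23 * m23) * n12 with hX3
  have x1 : 0 ≤ X1 := by positivity
  have x2 : 0 ≤ X2 := by positivity
  have x3 : 0 ≤ X3 := by positivity
  have a0 : 0 ≤ n12 * m12 := by positivity
  have b0 : 0 ≤ n13 * m13 := by positivity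
  have c0 : 0 ≤ n23 * m23 := by positivity
  have e4 : 0 ≤ 1 - 4 * θ := by linarith
  have key := Real.geom_mean_le_arith_mean3_weighted (w₁ := 1 - 4 * θ) (w₂ := 2 * θ)
    (w₃ := 2 * θ) e4 (by linarith) (by linarith) x1 x2 x3 (by ring)
  have h2 : (1 - 4 * θ) * X1 + 2 * θ * X2 + 2 * θ * X3 ≤ X1 + X2 + X3 := by
    nlinarith [mul_nonneg hθ.le x1]
  have h3 : X1 ^ (1 - 4 * θ) * X2 ^ (2 * θ) * X3 ^ (2 * θ) =
      (n12 * m12) ^ (1 / 2 - θ) * n12 ^ (2 * θ) * ((n13 * m13) ^ (1 / 2 - θ) * n13 ^ (2 * θ)) *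
      ((n23 * m23) ^ (2 * θ) * n23 ^ (1 - 4 * θ)) := by
    have s1 : ∀ x p : ℝ, 0 ≤ x → (√x) ^ p = x ^ (p / 2) := by
      intro x p hx
      rw [Real.sqrt_eq_rpow, ← Real.rpow_mul hx]
      congr 1; ring
    rw [hX1, hX2, hX3]
    rw [Real.mul_rpow (by positivity) h23, Real.mul_rpow (Real.sqrt_nonneg _) (Real.sqrt_nonneg _),
      Real.mul_rpow (by positivity) h13, Real.mul_rpow (Real.sqrt_nonneg _) (Real.sqrt_nonneg _),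
      Real.mul_rpow (by positivity) h12, Real.mul_rpow (Real.sqrt_nonneg _) (Real.sqrt_nonneg _)]
    simp only [s1 _ _ a0, s1 _ _ b0, s1 _ _ c0]
    have f1 : ∀ x : ℝ, 0 ≤ x → x ^ (1 / 2 - θ) = x ^ ((1 - 4 * θ) / 2) * x ^ (2 * θ / 2) := by
      intro x hx
      rw [← Real.rpow_add_of_nonneg hx (by linarith) (by linarith)]
      congr 1; ring
    have f2 : (n23 * m23) ^ (2 * θ) = (n23 * m23) ^ (2 * θ / 2) * (n23 * m23) ^ (2 * θ / 2) := by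
      rw [← Real.rpow_add_of_nonneg c0 (by linarith) (by linarith)]
      congr 1; ring
    rw [f1 _ a0, f1 _ b0, f2]
    ring
  rw [← h3]
  exact key.trans h2

/-- the first factor -/
theorem fac1 {θ S V c t e m : ℝ} (hθ : 0 < θ) (hθ' : θ ≤ 1 / 4) (hS : 0 ≤ S) (hV : 0 ≤ V)
    (hc : 0 ≤ c) (ht : 0 ≤ t) (he : 0 ≤ e) (hm : 0 ≤ m)
    (h1 : S ≤ V * (c * (t ^ 2 * e * m ^ 2))) (h2 : S ≤ V * (c * (e ^ 2 * m ^ 2))) :
    S ^ (1 / 4 : ℝ) ≤ (V * c) ^ (1 / 4 : ℝ) *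
      (t ^ (1 / 2 - θ) * e ^ (1 / 4 + θ / 2) * √m) := by
  have hVc : 0 ≤ V * c := by positivity
  have hp : 0 ≤ 1 / 4 - θ / 2 := by linarith
  have hq : 0 ≤ θ / 2 := by linarith
  have e0 : S ^ (1 / 4 : ℝ) = S ^ (1 / 4 - θ / 2) * S ^ (θ / 2) := by
    rw [← Real.rpow_add_of_nonneg hS hp hq]; congr 1; ring
  have g1 : S ^ (1 / 4 - θ / 2) ≤ (V * c) ^ (1 / 4 - θ / 2) *
      (t ^ (1 / 2 - θ) * e ^ (1 / 4 - θ / 2) * m ^ (1 / 2 - θ)) := by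
    refine (Real.rpow_le_rpow hS h1 hp).trans (le_of_eq ?_)
    rw [show V * (c * (t ^ 2 * e * m ^ 2)) = V * c * (t ^ 2 * e * m ^ 2) by ring,
      mul_rpow2 hVc (by positivity), mul_rpow3 (sq_nonneg t) he (sq_nonneg m), sq_rpow ht,
      sq_rpow hm, show 2 * (1 / 4 - θ / 2) = 1 / 2 - θ by ring]
  have g2 : S ^ (θ / 2) ≤ (V * c) ^ (θ / 2) * (e ^ θ * m ^ θ) := by
    refine (Real.rpow_le_rpow hS h2 hq).trans (le_of_eq ?_)
    rw [show V * (c * (e ^ 2 * m ^ 2)) = V * c * (e ^ 2 * m ^ 2) by ring,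
      mul_rpow2 hVc (by positivity), mul_rpow2 (sq_nonneg e) (sq_nonneg m), sq_rpow he,
      sq_rpow hm, show 2 * (θ / 2) = θ by ring]
  rw [e0]
  refine (mul_le_mul g1 g2 (Real.rpow_nonneg hS _) (by positivity)).trans (le_of_eq ?_)
  have k1 : (V * c) ^ (1 / 4 : ℝ) = (V * c) ^ (1 / 4 - θ / 2) * (V * c) ^ (θ / 2) := by
    rw [← Real.rpow_add_of_nonneg hVc hp hq]; congr 1; ring
  have k2 : e ^ (1 / 4 + θ / 2) = e ^ (1 / 4 - θ / 2) * e ^ θ := by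
    rw [← Real.rpow_add_of_nonneg he hp hθ.le]; congr 1; ring
  have k3 : √m = m ^ (1 / 2 - θ) * m ^ θ := by
    rw [← Real.rpow_add_of_nonneg hm (by linarith) hθ.le, Real.sqrt_eq_rpow]; congr 1; ring
  rw [k1, k2, k3]
  ring

/-- the second factor of a uniform slot -/
theorem fac2 {θ S D V c t e n m : ℝ} (hθ : 0 < θ) (hθ' : θ ≤ 1 / 4) (hS : 0 ≤ S) (hD : 0 ≤ D)
    (hV : 0 ≤ V) (hc : 0 ≤ c) (ht : 0 ≤ t) (he : 0 ≤ e) (hn : 0 ≤ n) (hm : 0 ≤ m)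
    (h1 : S ≤ V * (c * (t ^ 2 * e * m ^ 2))) (h2 : D ≤ V * (c * (e * n ^ 2))) :
    S ^ (1 / 4 - θ / 2) * D ^ θ ≤ (V * c) ^ (1 / 4 + θ / 2) *
      (t ^ (1 / 2 - θ) * e ^ (1 / 4 + θ / 2) * (m ^ (1 / 2 - θ) * n ^ (2 * θ))) := by
  have hVc : 0 ≤ V * c := by positivity
  have hp : 0 ≤ 1 / 4 - θ / 2 := by linarith
  have g1 : S ^ (1 / 4 - θ / 2) ≤ (V * c) ^ (1 / 4 - θ / 2) *
      (t ^ (1 / 2 - θ) * e ^ (1 / 4 - θ / 2) * m ^ (1 / 2 - θ)) := by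
    refine (Real.rpow_le_rpow hS h1 hp).trans (le_of_eq ?_)
    rw [show V * (c * (t ^ 2 * e * m ^ 2)) = V * c * (t ^ 2 * e * m ^ 2) by ring,
      mul_rpow2 hVc (by positivity), mul_rpow3 (sq_nonneg t) he (sq_nonneg m), sq_rpow ht,
      sq_rpow hm, show 2 * (1 / 4 - θ / 2) = 1 / 2 - θ by ring]
  have g2 : D ^ θ ≤ (V * c) ^ θ * (e ^ θ * n ^ (2 * θ)) := by
    refine (Real.rpow_le_rpow hD h2 hθ.le).trans (le_of_eq ?_)
    rw [show V * (c * (e * n ^ 2)) = V * c * (e * n ^ 2) by ring,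
      mul_rpow2 hVc (by positivity), mul_rpow2 he (sq_nonneg n), sq_rpow hn]
  refine (mul_le_mul g1 g2 (Real.rpow_nonneg hD _) (by positivity)).trans (le_of_eq ?_)
  have k1 : (V * c) ^ (1 / 4 + θ / 2) = (V * c) ^ (1 / 4 - θ / 2) * (V * c) ^ θ := by
    rw [← Real.rpow_add_of_nonneg hVc hp hθ.le]; congr 1; ring
  have k2 : e ^ (1 / 4 + θ / 2) = e ^ (1 / 4 - θ / 2) * e ^ θ := by
    rw [← Real.rpow_add_of_nonneg he hp hθ.le]; congr 1; ring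
  rw [k1, k2]
  ring

/-- the third slot, first term -/
theorem fac3 {D V c e n : ℝ} (hD : 0 ≤ D) (hV : 0 ≤ V) (hc : 0 ≤ c) (he : 0 ≤ e) (hn : 0 ≤ n)
    (h : D ≤ V * (c * (e * n ^ 2))) :
    D ^ (1 / 2 : ℝ) ≤ (V * c) ^ (1 / 2 : ℝ) * (e ^ (1 / 2 : ℝ) * n) := by
  refine (Real.rpow_le_rpow hD h (by norm_num)).trans (le_of_eq ?_)
  rw [show V * (c * (e * n ^ 2)) = V * c * (e * n ^ 2) by ring,
    Real.mul_rpow (by positivity) (by positivity), Real.mul_rpow he (by positivity),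
    ← Real.sqrt_eq_rpow (n ^ 2), Real.sqrt_sq hn]

/-- the third slot, second term -/
theorem fac4 {θ S D V c e n m : ℝ} (hθ : 0 < θ) (hθ' : θ ≤ 1 / 4) (hS : 0 ≤ S) (hD : 0 ≤ D)
    (hV : 0 ≤ V) (hc : 0 ≤ c) (he : 0 ≤ e) (hn : 0 ≤ n) (hm : 0 ≤ m)
    (h1 : S ≤ V * (c * (e ^ 2 * m ^ 2))) (h2 : D ≤ V * (c * (e * n ^ 2))) :
    S ^ θ * D ^ (1 / 2 - 2 * θ) ≤ (V * c) ^ (1 / 2 - θ) *
      (e ^ (1 / 2 : ℝ) * (m ^ (2 * θ) * n ^ (1 - 4 * θ))) := by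
  have hVc : 0 ≤ V * c := by positivity
  have hp : 0 ≤ 1 / 2 - 2 * θ := by linarith
  have g1 : S ^ θ ≤ (V * c) ^ θ * (e ^ (2 * θ) * m ^ (2 * θ)) := by
    refine (Real.rpow_le_rpow hS h1 hθ.le).trans (le_of_eq ?_)
    rw [show V * (c * (e ^ 2 * m ^ 2)) = V * c * (e ^ 2 * m ^ 2) by ring,
      mul_rpow2 hVc (by positivity), mul_rpow2 (sq_nonneg e) (sq_nonneg m), sq_rpow he,
      sq_rpow hm]
  have g2 : D ^ (1 / 2 - 2 * θ) ≤ (V * c) ^ (1 / 2 - 2 * θ) *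
      (e ^ (1 / 2 - 2 * θ) * n ^ (1 - 4 * θ)) := by
    refine (Real.rpow_le_rpow hD h2 hp).trans (le_of_eq ?_)
    rw [show V * (c * (e * n ^ 2)) = V * c * (e * n ^ 2) by ring,
      mul_rpow2 hVc (by positivity), mul_rpow2 he (sq_nonneg n), sq_rpow hn,
      show 2 * (1 / 2 - 2 * θ) = 1 - 4 * θ by ring]
  refine (mul_le_mul g1 g2 (Real.rpow_nonneg hD _) (by positivity)).trans (le_of_eq ?_)
  have k1 : (V * c) ^ (1 / 2 - θ) = (V * c) ^ θ * (V * c) ^ (1 / 2 - 2 * θ) := by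
    rw [← Real.rpow_add_of_nonneg hVc hθ.le hp]; congr 1; ring
  have k2 : e ^ (1 / 2 : ℝ) = e ^ (2 * θ) * e ^ (1 / 2 - 2 * θ) := by
    rw [← Real.rpow_add_of_nonneg he (by linarith) hp]; congr 1; ring
  rw [k1, k2]
  ring

/-- **EN4, numbers**: the two terms in the pair weight. -/
theorem two_le {θ V c tA tB eA eB eC n12 m12 n13 m13 n23 m23 GA GB GC DA DB DC : ℝ}
    (hθ : 0 < θ) (hθ' : θ ≤ 1 / 4) (hV : 0 ≤ V) (hc : 0 ≤ c) (htA : 0 ≤ tA) (htB : 0 ≤ tB)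
    (heA : 0 ≤ eA) (heB : 0 ≤ eB) (heC : 0 ≤ eC)
    (h12 : 0 ≤ n12) (k12 : 0 ≤ m12) (h13 : 0 ≤ n13) (k13 : 0 ≤ m13) (h23 : 0 ≤ n23)
    (k23 : 0 ≤ m23)
    (pGA : 0 ≤ GA) (pGB : 0 ≤ GB) (pGC : 0 ≤ GC) (pDA : 0 ≤ DA) (pDB : 0 ≤ DB) (pDC : 0 ≤ DC)
    (hGA : GA ≤ V * (c * (tA ^ 2 * eA * (n12 * m12) ^ 2)))
    (hGA' : GA ≤ V * (c * (eA ^ 2 * (n12 * m12) ^ 2)))
    (hGB : GB ≤ V * (c * (tB ^ 2 * eB * (n13 * m13) ^ 2)))
    (hGB' : GB ≤ V * (c * (eB ^ 2 * (n13 * m13) ^ 2)))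
    (hGC : GC ≤ V * (c * (eC ^ 2 * (n23 * m23) ^ 2)))
    (hDA : DA ≤ V * (c * (eA * n12 ^ 2))) (hDB : DB ≤ V * (c * (eB * n13 ^ 2)))
    (hDC : DC ≤ V * (c * (eC * n23 ^ 2))) :
    two θ GA GB GC DA DB DC ≤ (1 + θ⁻¹) * (V * c) *
      ((tA * tB) ^ (1 / 2 - θ) * (eA * eB) ^ (1 / 4 + θ / 2) * eC ^ (1 / 2 : ℝ)) *
        pwn n12 m12 n13 m13 n23 m23 := by
  have hVc : 0 ≤ V * c := by positivity
  have a0 : 0 ≤ n12 * m12 := by positivity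
  have b0 : 0 ≤ n13 * m13 := by positivity
  have c0 : 0 ≤ n23 * m23 := by positivity
  set Y : ℝ := (tA * tB) ^ (1 / 2 - θ) * (eA * eB) ^ (1 / 4 + θ / 2) * eC ^ (1 / 2 : ℝ) with hY
  have hY0 : 0 ≤ Y := by positivity
  have hYe : Y = tA ^ (1 / 2 - θ) * tB ^ (1 / 2 - θ) * (eA ^ (1 / 4 + θ / 2) *
      eB ^ (1 / 4 + θ / 2)) * eC ^ (1 / 2 : ℝ) := by
    rw [hY, Real.mul_rpow htA htB, Real.mul_rpow heA heB]
  have hP := pwn_nonneg (m12 := m12) (m13 := m13) (m23 := m23) h12 h13 h23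
  -- the first term
  have f1 : GA ^ (1 / 4 : ℝ) * GB ^ (1 / 4 : ℝ) * DC ^ (1 / 2 : ℝ) ≤
      V * c * Y * pwn n12 m12 n13 m13 n23 m23 := by
    have u1 := fac1 hθ hθ' pGA hV hc htA heA a0 hGA hGA'
    have u2 := fac1 hθ hθ' pGB hV hc htB heB b0 hGB hGB'
    have u3 := fac3 pDC hV hc heC h23 hDC
    have u4 := mul_le_mul (mul_le_mul u1 u2 (Real.rpow_nonneg pGB _) (by positivity)) u3
      (Real.rpow_nonneg pDC _) (by positivity)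
    refine u4.trans ?_
    have k1 : V * c = (V * c) ^ (1 / 4 : ℝ) * (V * c) ^ (1 / 4 : ℝ) * (V * c) ^ (1 / 2 : ℝ) := by
      rw [← Real.rpow_add_of_nonneg hVc (by norm_num) (by norm_num),
        ← Real.rpow_add_of_nonneg hVc (by norm_num) (by norm_num)]
      norm_num
    have k2 : √(n12 * m12) * √(n13 * m13) * n23 ≤ pwn n12 m12 n13 m13 n23 m23 := by
      unfold pwn
      have : 0 ≤ √(n12 * m12) * √(n23 * m23) * n13 := by positivity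
      have : 0 ≤ √(n13 * m13) * √(n23 * m23) * n12 := by positivity
      linarith
    calc _ = ((V * c) ^ (1 / 4 : ℝ) * (V * c) ^ (1 / 4 : ℝ) * (V * c) ^ (1 / 2 : ℝ)) * Y *
          (√(n12 * m12) * √(n13 * m13) * n23) := by rw [hYe]; ring
      _ = V * c * Y * (√(n12 * m12) * √(n13 * m13) * n23) := by rw [← k1]
      _ ≤ _ := mul_le_mul_of_nonneg_left k2 (by positivity)
  -- the second term
  have f2 : snd θ GA GB GC DA DB DC ≤ V * c * Y * pwn n12 m12 n13 m13 n23 m23 := by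
    have u1 := fac2 hθ hθ' pGA pDA hV hc htA heA h12 a0 hGA hDA
    have u2 := fac2 hθ hθ' pGB pDB hV hc htB heB h13 b0 hGB hDB
    have u3 := fac4 hθ hθ' pGC pDC hV hc heC h23 c0 hGC hDC
    have u4 := mul_le_mul (mul_le_mul u1 u2 (by positivity) (by positivity)) u3
      (by positivity) (by positivity)
    have e1 : snd θ GA GB GC DA DB DC = GA ^ (1 / 4 - θ / 2) * DA ^ θ *
        (GB ^ (1 / 4 - θ / 2) * DB ^ θ) * (GC ^ θ * DC ^ (1 / 2 - 2 * θ)) := by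
      unfold snd; ring
    rw [e1]
    refine u4.trans ?_
    have k1 : V * c = (V * c) ^ (1 / 4 + θ / 2) * (V * c) ^ (1 / 4 + θ / 2) *
        (V * c) ^ (1 / 2 - θ) := by
      rw [← Real.rpow_add_of_nonneg hVc (by linarith) (by linarith),
        ← Real.rpow_add_of_nonneg hVc (by linarith) (by linarith)]
      rw [show 1 / 4 + θ / 2 + (1 / 4 + θ / 2) + (1 / 2 - θ) = 1 by ring, Real.rpow_one]
    have k2 := norms_le hθ hθ' h12 k12 h13 k13 h23 k23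
    calc _ = ((V * c) ^ (1 / 4 + θ / 2) * (V * c) ^ (1 / 4 + θ / 2) *
        (V * c) ^ (1 / 2 - θ)) * Y * ((n12 * m12) ^ (1 / 2 - θ) * n12 ^ (2 * θ) *
          ((n13 * m13) ^ (1 / 2 - θ) * n13 ^ (2 * θ)) *
            ((n23 * m23) ^ (2 * θ) * n23 ^ (1 - 4 * θ))) := by rw [hYe]; ring
      _ = V * c * Y * ((n12 * m12) ^ (1 / 2 - θ) * n12 ^ (2 * θ) *
          ((n13 * m13) ^ (1 / 2 - θ) * n13 ^ (2 * θ)) *
            ((n23 * m23) ^ (2 * θ) * n23 ^ (1 - 4 * θ))) := by rw [← k1]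
      _ ≤ _ := mul_le_mul_of_nonneg_left k2 (by positivity)
  unfold two
  calc _ ≤ V * c * Y * pwn n12 m12 n13 m13 n23 m23 +
        θ⁻¹ * (V * c * Y * pwn n12 m12 n13 m13 n23 m23) :=
        add_le_add f1 (mul_le_mul_of_nonneg_left f2 (by positivity))
    _ = _ := by ring

/-- **EN4**: the sum over `x₀` of the profile bound in the pair weight. -/
theorem en4 {ι : Type*} (s : Finset ι) {T GA GB GC DA DB DC : ι → ℝ}
    {θ K V c tA tB eA eB eC n12 m12 n13 m13 n23 m23 : ℝ}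
    (hθ : 0 < θ) (hθ' : θ ≤ 1 / 4) (hK : 0 ≤ K) (hV : 0 ≤ V) (hc : 0 ≤ c) (htA : 0 ≤ tA)
    (htB : 0 ≤ tB) (heA : 0 ≤ eA) (heB : 0 ≤ eB) (heC : 0 ≤ eC)
    (h12 : 0 ≤ n12) (k12 : 0 ≤ m12) (h13 : 0 ≤ n13) (k13 : 0 ≤ m13) (h23 : 0 ≤ n23)
    (k23 : 0 ≤ m23)
    (pGA : ∀ i ∈ s, 0 ≤ GA i) (pGB : ∀ i ∈ s, 0 ≤ GB i) (pGC : ∀ i ∈ s, 0 ≤ GC i)
    (pDA : ∀ i ∈ s, 0 ≤ DA i) (pDB : ∀ i ∈ s, 0 ≤ DB i) (pDC : ∀ i ∈ s, 0 ≤ DC i)
    (h : ∀ i ∈ s, ∀ gA gB gC dA dB dC : ℝ, GA i < gA → GB i < gB → GC i < gC → DA i < dA →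
      DB i < dB → DC i < dC → T i ≤ K * prf gA gB gC dA dB dC)
    (hGA : ∑ i ∈ s, GA i ≤ V * (c * (tA ^ 2 * eA * (n12 * m12) ^ 2)))
    (hGA' : ∑ i ∈ s, GA i ≤ V * (c * (eA ^ 2 * (n12 * m12) ^ 2)))
    (hGB : ∑ i ∈ s, GB i ≤ V * (c * (tB ^ 2 * eB * (n13 * m13) ^ 2)))
    (hGB' : ∑ i ∈ s, GB i ≤ V * (c * (eB ^ 2 * (n13 * m13) ^ 2)))
    (hGC : ∑ i ∈ s, GC i ≤ V * (c * (eC ^ 2 * (n23 * m23) ^ 2)))
    (hDA : ∑ i ∈ s, DA i ≤ V * (c * (eA * n12 ^ 2)))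
    (hDB : ∑ i ∈ s, DB i ≤ V * (c * (eB * n13 ^ 2)))
    (hDC : ∑ i ∈ s, DC i ≤ V * (c * (eC * n23 ^ 2))) :
    ∑ i ∈ s, T i ≤ K * ((1 + θ⁻¹) * (V * c) *
      ((tA * tB) ^ (1 / 2 - θ) * (eA * eB) ^ (1 / 4 + θ / 2) * eC ^ (1 / 2 : ℝ)) *
        pwn n12 m12 n13 m13 n23 m23) :=
  (sum_le_two s hθ hθ' hK pGA pGB pGC pDA pDB pDC h).trans (mul_le_mul_of_nonneg_left
    (two_le hθ hθ' hV hc htA htB heA heB heC h12 k12 h13 k13 h23 k23 (sum_nonneg pGA)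
      (sum_nonneg pGB) (sum_nonneg pGC) (sum_nonneg pDA) (sum_nonneg pDB) (sum_nonneg pDC)
      hGA hGA' hGB hGB' hGC hDA hDB hDC) hK)

end

end Vale.Agent.P141.H498
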