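import Vale.Agent.P141.H769.MomCell

/-!
# P141, line W: fourth moments of kernels: transposition, sums, cut gauges
-/

namespace Vale.Agent.P141.H498

open Finset Vale.Agent.P141.PL
open Vale.Agent.P141.PL.H315 (avg avg_nonneg)
open Vale.Agent.P141.H769 (mo4f)

noncomputable section

/-- the fourth power of the Schatten 4 norm of a kernel, normalised -/
def s4k (B C : Finset ℤ) (M : ℤ → ℤ → ℝ) : ℝ :=
  avg B fun x => avg B fun c => (avg C fun y => M x y * M c y) ^ 2

theorem s4k_nonneg (B C : Finset ℤ) (M : ℤ → ℤ → ℝ) : 0 ≤ s4k B C M :=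
  avg_nonneg fun _ _ => avg_nonneg fun _ _ => sq_nonneg _

theorem mo4f_s4k (A B C : Finset ℤ) (a : ℤ → ℤ → ℝ) (G : ℤ × ℤ × ℤ → ℝ) :
    mo4f A B C a G = avg A fun z => s4k B C fun x y => a x y * G (z, x, y) := rfl

theorem avg_congr' {ι : Type*} {S : Finset ι} {f g : ι → ℝ} (h : ∀ x ∈ S, f x = g x) :
    avg S f = avg S g := by
  unfold avg; rw [sum_congr rfl h]

theorem avg_mono' {ι : Type*} {S : Finset ι} {f g : ι → ℝ} (h : ∀ x ∈ S, f x ≤ g x) :
    avg S f ≤ avg S g := by
  unfold avg
  exact mul_le_mul_of_nonneg_left (sum_le_sum h) (by positivity)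

theorem avg_add' {ι : Type*} (S : Finset ι) (f g : ι → ℝ) :
    (avg S fun x => f x + g x) = avg S f + avg S g := by
  unfold avg; rw [sum_add_distrib, mul_add]

theorem avg_smul' {ι : Type*} (S : Finset ι) (c : ℝ) (f : ι → ℝ) :
    (avg S fun x => c * f x) = c * avg S f := by
  unfold avg; rw [← mul_sum]; ring

theorem avg_comm' {ι κ : Type*} (S : Finset ι) (T : Finset κ) (f : ι → κ → ℝ) :
    (avg S fun x => avg T fun y => f x y) = avg T fun y => avg S fun x => f x y := by
  unfold avg
  simp only [mul_sum]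
  rw [sum_comm]
  refine sum_congr rfl fun y _ => sum_congr rfl fun x _ => ?_
  ring

theorem avg_mul_avg {ι κ : Type*} (S : Finset ι) (T : Finset κ) (f : ι → ℝ) (g : κ → ℝ) :
    avg S f * avg T g = avg S fun x => avg T fun y => f x * g y := by
  have h : ∀ x, (avg T fun y => f x * g y) = avg T g * f x := fun x => by
    rw [avg_smul']; ring
  simp only [h]
  rw [avg_smul']
  ring

/-- the mixed form `tr (K_A K_D)` is a square -/
theorem mixed_eq (B C : Finset ℤ) (P Q : ℤ → ℤ → ℝ) :
    (avg B fun x => avg B fun c => (avg C fun y => P x y * P c y) * (avg C fun y => Q x y * Q c y)) =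
      avg C fun y => avg C fun y' => (avg B fun x => P x y * Q x y') ^ 2 := by
  have h1 : ∀ x c, (avg C fun y => P x y * P c y) * (avg C fun y => Q x y * Q c y) =
      avg C fun y => avg C fun y' => P x y * P c y * (Q x y' * Q c y') := fun x c =>
    avg_mul_avg ..
  have h2 : ∀ y y', (avg B fun x => P x y * Q x y') ^ 2 =
      avg B fun x => avg B fun c => P x y * Q x y' * (P c y * Q c y') := fun y y' => by
    rw [sq, avg_mul_avg]
  simp only [h1, h2]
  have e1 : (avg B fun x => avg B fun c => avg C fun y => avg C fun y' =>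
      P x y * P c y * (Q x y' * Q c y')) = avg C fun y => avg B fun x => avg B fun c =>
        avg C fun y' => P x y * P c y * (Q x y' * Q c y') := by
    rw [avg_comm' C B]
    refine avg_congr' fun x _ => ?_
    rw [avg_comm' C B]
  rw [e1]
  refine avg_congr' fun y _ => ?_
  have e2 : (avg B fun x => avg B fun c => avg C fun y' => P x y * P c y * (Q x y' * Q c y')) =
      avg C fun y' => avg B fun x => avg B fun c => P x y * P c y * (Q x y' * Q c y') := by
    rw [avg_comm' C B]
    refine avg_congr' fun x _ => ?_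
    rw [avg_comm' C B]
  rw [e2]
  refine avg_congr' fun y' _ => avg_congr' fun x _ => avg_congr' fun c _ => ?_
  ring

/-- **Transposition.** -/
theorem s4k_swap (B C : Finset ℤ) (M : ℤ → ℤ → ℝ) : s4k B C M = s4k C B fun y x => M x y := by
  have h := mixed_eq B C M M
  unfold s4k
  rw [← h]
  refine avg_congr' fun x _ => avg_congr' fun c _ => ?_
  ring

/-- **Sums.** -/
theorem s4k_add_le (B C : Finset ℤ) (P Q : ℤ → ℤ → ℝ) :
    s4k B C (fun x y => P x y + Q x y) ≤ 8 * (s4k B C P + s4k B C Q) := by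
  have hm := mixed_eq B C (fun x y => P x y + Q x y) (fun x y => P x y - Q x y)
  have hm0 : 0 ≤ avg B fun x => avg B fun c =>
      (avg C fun y => (P x y + Q x y) * (P c y + Q c y)) *
        (avg C fun y => (P x y - Q x y) * (P c y - Q c y)) := by
    rw [hm]
    exact avg_nonneg fun _ _ => avg_nonneg fun _ _ => sq_nonneg _
  have hL : ∀ x c, (avg C fun y => (P x y + Q x y) * (P c y + Q c y)) +
      (avg C fun y => (P x y - Q x y) * (P c y - Q c y)) =
      2 * ((avg C fun y => P x y * P c y) + avg C fun y => Q x y * Q c y) := by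
    intro x c
    rw [← avg_add', ← avg_add', ← avg_smul']
    refine avg_congr' fun y _ => ?_
    ring
  have h1 : s4k B C (fun x y => P x y + Q x y) ≤ avg B fun x => avg B fun c =>
      (2 * ((avg C fun y => P x y * P c y) + avg C fun y => Q x y * Q c y)) ^ 2 := by
    have h2 : (avg B fun x => avg B fun c =>
        (2 * ((avg C fun y => P x y * P c y) + avg C fun y => Q x y * Q c y)) ^ 2) =
        s4k B C (fun x y => P x y + Q x y) + (2 * (avg B fun x => avg B fun c =>
          (avg C fun y => (P x y + Q x y) * (P c y + Q c y)) *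
            (avg C fun y => (P x y - Q x y) * (P c y - Q c y))) +
          s4k B C (fun x y => P x y - Q x y)) := by
      unfold s4k
      rw [← avg_smul', ← avg_add', ← avg_add']
      refine avg_congr' fun x _ => ?_
      rw [← avg_smul', ← avg_add', ← avg_add']
      refine avg_congr' fun c _ => ?_
      rw [← hL]
      ring
    have h3 := s4k_nonneg B C (fun x y => P x y - Q x y)
    rw [h2]
    linarith
  refine h1.trans ?_
  have h4 : 8 * (s4k B C P + s4k B C Q) = avg B fun x => avg B fun c =>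
      8 * ((avg C fun y => P x y * P c y) ^ 2 + (avg C fun y => Q x y * Q c y) ^ 2) := by
    unfold s4k
    rw [← avg_add', ← avg_smul']
    refine avg_congr' fun x _ => ?_
    rw [← avg_add', ← avg_smul']
  rw [h4]
  refine avg_mono' fun x _ => avg_mono' fun c _ => ?_
  nlinarith [sq_nonneg ((avg C fun y => P x y * P c y) - avg C fun y => Q x y * Q c y)]

theorem s4k_zero (B C : Finset ℤ) : s4k B C (fun _ _ => 0) = 0 := by
  unfold s4k avg
  simp

theorem s4k_congr {B C : Finset ℤ} {M M' : ℤ → ℤ → ℝ}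
    (h : ∀ x ∈ B, ∀ y ∈ C, M x y = M' x y) : s4k B C M = s4k B C M' := by
  unfold s4k
  refine avg_congr' fun x hx => avg_congr' fun c hc => ?_
  congr 1
  refine avg_congr' fun y hy => ?_
  rw [h x hx y hy, h c hc y hy]

/-! ### The same for `mo4f` -/

theorem mo4f_congr {A B C : Finset ℤ} {a a' : ℤ → ℤ → ℝ} {G G' : ℤ × ℤ × ℤ → ℝ}
    (h : ∀ z ∈ A, ∀ x ∈ B, ∀ y ∈ C, a x y * G (z, x, y) = a' x y * G' (z, x, y)) :
    mo4f A B C a G = mo4f A B C a' G' := by
  rw [mo4f_s4k, mo4f_s4k]
  exact avg_congr' fun z hz => s4k_congr fun x hx y hy => h z hz x hx y hy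

theorem mo4f_nonneg (A B C : Finset ℤ) (a : ℤ → ℤ → ℝ) (G : ℤ × ℤ × ℤ → ℝ) :
    0 ≤ mo4f A B C a G := avg_nonneg fun _ _ => s4k_nonneg ..

theorem mo4f_swap (A B C : Finset ℤ) (a : ℤ → ℤ → ℝ) (G : ℤ × ℤ × ℤ → ℝ) :
    mo4f A B C a G = mo4f A C B (fun y x => a x y) (fun q => G (q.1, q.2.2, q.2.1)) := by
  rw [mo4f_s4k, mo4f_s4k]
  exact avg_congr' fun z _ => s4k_swap ..

theorem mo4f_add_le (A B C : Finset ℤ) (a : ℤ → ℤ → ℝ) (G H : ℤ × ℤ × ℤ → ℝ) :
    mo4f A B C a (fun q => G q + H q) ≤ 8 * (mo4f A B C a G + mo4f A B C a H) := by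
  rw [mo4f_s4k, mo4f_s4k, mo4f_s4k, ← avg_add', ← avg_smul']
  refine avg_mono' fun z _ => le_trans (le_of_eq ?_) (s4k_add_le B C _ _)
  refine s4k_congr fun x _ y _ => ?_
  ring

theorem mo4f_zero (A B C : Finset ℤ) (a : ℤ → ℤ → ℝ) : mo4f A B C a (fun _ => 0) = 0 := by
  rw [mo4f_s4k]
  simp only [mul_zero, s4k_zero]
  unfold avg
  simp

/-! ### Cut gauges -/

theorem avg_cut2 {ι : Type*} [DecidableEq ι] {S S' : Finset ι} (h : S ⊆ S')
    (hc : (S'.card : ℝ) = 2 * S.card) (g : ι → ℝ) :
    avg S' (fun x => if x ∈ S then g x else 0) = 1 / 2 * avg S g := by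
  unfold avg
  rw [← sum_filter, filter_mem_eq_inter, inter_eq_right.mpr h, hc, mul_inv]
  ring

theorem avg_sub2 {ι : Type*} [DecidableEq ι] {S S' : Finset ι} (h : S ⊆ S')
    (hc : (S'.card : ℝ) = 2 * S.card) {g : ι → ℝ} (hg : ∀ x, 0 ≤ g x) :
    avg S g ≤ 2 * avg S' g := by
  have h1 := avg_cut2 h hc g
  have h2 : avg S' (fun x => if x ∈ S then g x else 0) ≤ avg S' g :=
    avg_mono' fun x _ => by
      split_ifs
      · exact le_rfl
      · exact hg x
  linarith

/-- the moment on a subcube, from the cut gauge on the cube -/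
theorem mo4f_cut {A A' B B' C C' : Finset ℤ} (hA : A ⊆ A') (hB : B ⊆ B') (hC : C ⊆ C')
    (cA : (A'.card : ℝ) = 2 * A.card) (cB : (B'.card : ℝ) = 2 * B.card)
    (cC : (C'.card : ℝ) = 2 * C.card) (a : ℤ → ℤ → ℝ) (G : ℤ × ℤ × ℤ → ℝ) :
    mo4f A B C a G ≤ 32 * mo4f A' B' C' (fun x y => if x ∈ B ∧ y ∈ C then a x y else 0) G := by
  have h1 : ∀ z, s4k B' C' (fun x y => (if x ∈ B ∧ y ∈ C then a x y else 0) * G (z, x, y)) =
      1 / 16 * s4k B C (fun x y => a x y * G (z, x, y)) := by
    intro z
    have e1 : ∀ x c, (avg C' fun y => ((if x ∈ B ∧ y ∈ C then a x y else 0) * G (z, x, y)) *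
        ((if c ∈ B ∧ y ∈ C then a c y else 0) * G (z, c, y))) ^ 2 =
        if x ∈ B then (if c ∈ B then 1 / 4 * (avg C fun y => (a x y * G (z, x, y)) *
          (a c y * G (z, c, y))) ^ 2 else 0) else 0 := by
      intro x c
      by_cases hx : x ∈ B
      · by_cases hc : c ∈ B
        · rw [if_pos hx, if_pos hc]
          have e2 : (avg C' fun y => ((if x ∈ B ∧ y ∈ C then a x y else 0) * G (z, x, y)) *
              ((if c ∈ B ∧ y ∈ C then a c y else 0) * G (z, c, y))) = 1 / 2 * avg C fun y =>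
                (a x y * G (z, x, y)) * (a c y * G (z, c, y)) := by
            rw [← avg_cut2 hC cC]
            refine avg_congr' fun y _ => ?_
            by_cases hy : y ∈ C
            · simp [hx, hc, hy]
            · simp [hy]
          rw [e2]
          ring
        · simp [hc, avg]
      · simp [hx, avg]
    have e3 : ∀ x, (avg B' fun c => if x ∈ B then (if c ∈ B then 1 / 4 * (avg C fun y =>
        (a x y * G (z, x, y)) * (a c y * G (z, c, y))) ^ 2 else 0) else 0) =
        if x ∈ B then 1 / 8 * avg B fun c => (avg C fun y => (a x y * G (z, x, y)) *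
          (a c y * G (z, c, y))) ^ 2 else 0 := by
      intro x
      by_cases hx : x ∈ B
      · simp only [if_pos hx]
        rw [avg_cut2 hB cB, avg_smul']
        ring
      · simp [hx, avg]
    unfold s4k
    simp only [e1, e3]
    rw [avg_cut2 hB cB, avg_smul']
    ring
  rw [mo4f_s4k, mo4f_s4k]
  simp only [h1]
  rw [avg_smul']
  have h2 := avg_sub2 hA cA (g := fun z => s4k B C fun x y => a x y * G (z, x, y))
    fun z => s4k_nonneg ..
  linarith

end

end Vale.Agent.P141.H498
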