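import Vale.Agent.P141.H305.Top0

/-!
# P141, line (A), (D5): the price of the removed columns

Root cube `(K, x)` with the data of one row class (`H305.Cls`).  At squares `(m1, m2)` of scale `j`
(label vertex, split vertex) a set `H j m1 m2` of columns is removed from `u`.  On the boxes over
such a square the payer is `(1_H g, w, v)`, `|w| ≤ |u|`.  Together these payers cost only

`18 P (Λ s) ^ (7 / 8) (∑ 8 ^ j) ^ (5 / 8) (∑ 8 ^ j avg (1_H g) ^ 2) ^ (3 / 8)`,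

`P` the natural price, `Λ` the threshold of the alive cubes.
-/

namespace Vale.Agent.P141.H498

open Finset
open Vale.Agent.P141.PL (Pt ix cx)
open Vale.Agent.P141.PL.H315 (iv Tri A2 avg avg_nonneg cube3 card_cube3 atm)
open Vale.Agent.P141.PL.H560 (cbs bx0)
open Vale.Agent.P141.PL.H317 (crn)
open Vale.Agent.P141.H48 (cst cst_crn ix_corner)
open Vale.Agent.P141.H579 (cosA cosA_mono cosA_true cosA_nonneg nrt comp_cosF not_cst cst_her cst_up)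
open Vale.Agent.P141.H136 (comp)
open Vale.Agent.P141.H572 (cosF)
open Vale.Agent.P141.H922 (n2 n4 nN pw3 wP n2_nonneg n4_nonneg nN_nonneg wP_nonneg n2_e12 n2_e13
  n2_e23 n4_e12 n4_e13 n4_e23 nN_e12 nN_e13 nN_e23)
open Vale.Agent.P141.H305 (Cls nN_le_of)

noncomputable section

open scoped Classical

/-! ### One box -/

section label

variable {ι : Type} [Fintype ι]

/-- vectors of labels as vectors of the Euclidean space -/
def tE (u : ℤ → ℤ → ι → ℝ) : ℤ → ℤ → EuclideanSpace ℝ ι := fun a b => WithLp.toLp 2 (u a b)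

theorem tE_sq (u : ℤ → ℤ → ι → ℝ) (a b : ℤ) : ‖tE u a b‖ ^ 2 = u a b ⬝ᵥ u a b := by
  unfold tE
  rw [EuclideanSpace.norm_sq_eq]
  simp only [Real.norm_eq_abs, sq_abs, dotProduct]
  exact sum_congr rfl fun i _ => by ring

theorem cmp_eq (g : ℤ → ℤ → ℝ) (u v : ℤ → ℤ → ι → ℝ) :
    H305.cmp g u v = comp (fun p => g p.1 p.2) (tE u) (tE v) := by
  funext y
  unfold H305.cmp comp tE
  simp only [EuclideanSpace.inner_eq_star_dotProduct, star_trivial]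
  rw [dotProduct_comm]

end label

/-- products of norms -/
theorem three_le {S a nu nv ng mu mv mg : ℝ} (hS : 0 ≤ S) (ha : 0 ≤ a) (haS : a ≤ S)
    (_ : 0 ≤ nu) (n2 : 0 ≤ nv) (n3 : 0 ≤ ng) (m1 : 0 ≤ mu) (m2 : 0 ≤ mv) (m3 : 0 ≤ mg)
    (h1 : nu ≤ S ^ (3 / 8 : ℝ)) (h2 : nv ≤ S ^ (3 / 8 : ℝ)) (h3 : ng ≤ a ^ (3 / 8 : ℝ))
    (h4 : mu ≤ √S) (h5 : mv ≤ √S) (h6 : mg ≤ √a) :
    nu * nv * mg + nu * ng * mv + nv * ng * mu ≤ 3 * (S ^ (7 / 8 : ℝ) * a ^ (3 / 8 : ℝ)) := by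
  have hS3 : 0 ≤ S ^ (3 / 8 : ℝ) := Real.rpow_nonneg hS _
  have ha3 : 0 ≤ a ^ (3 / 8 : ℝ) := Real.rpow_nonneg ha _
  have e1 : S ^ (3 / 8 : ℝ) * √S = S ^ (7 / 8 : ℝ) := by
    rw [Real.sqrt_eq_rpow, ← Real.rpow_add_of_nonneg hS (by norm_num) (by norm_num)]
    norm_num
  have e2 : √a ≤ a ^ (3 / 8 : ℝ) * S ^ (1 / 8 : ℝ) := by
    have h : √a = a ^ (3 / 8 : ℝ) * a ^ (1 / 8 : ℝ) := by
      rw [Real.sqrt_eq_rpow, ← Real.rpow_add_of_nonneg ha (by norm_num) (by norm_num)]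
      norm_num
    rw [h]
    exact mul_le_mul_of_nonneg_left (Real.rpow_le_rpow ha haS (by norm_num)) ha3
  have e3 : S ^ (3 / 8 : ℝ) * S ^ (3 / 8 : ℝ) * S ^ (1 / 8 : ℝ) = S ^ (7 / 8 : ℝ) := by
    rw [← Real.rpow_add_of_nonneg hS (by norm_num) (by norm_num),
      ← Real.rpow_add_of_nonneg hS (by norm_num) (by norm_num)]
    norm_num
  have k1 : nu * nv * mg ≤ S ^ (7 / 8 : ℝ) * a ^ (3 / 8 : ℝ) :=
    calc nu * nv * mg ≤ S ^ (3 / 8 : ℝ) * S ^ (3 / 8 : ℝ) * (a ^ (3 / 8 : ℝ) * S ^ (1 / 8 : ℝ)) :=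
          mul_le_mul (mul_le_mul h1 h2 n2 hS3) (h6.trans e2) m3 (mul_nonneg hS3 hS3)
      _ = (S ^ (3 / 8 : ℝ) * S ^ (3 / 8 : ℝ) * S ^ (1 / 8 : ℝ)) * a ^ (3 / 8 : ℝ) := by ring
      _ = _ := by rw [e3]
  have k2 : nu * ng * mv ≤ S ^ (7 / 8 : ℝ) * a ^ (3 / 8 : ℝ) :=
    calc nu * ng * mv ≤ S ^ (3 / 8 : ℝ) * a ^ (3 / 8 : ℝ) * √S :=
          mul_le_mul (mul_le_mul h1 h3 n3 hS3) h5 m2 (mul_nonneg hS3 ha3)
      _ = (S ^ (3 / 8 : ℝ) * √S) * a ^ (3 / 8 : ℝ) := by ring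
      _ = _ := by rw [e1]
  have k3 : nv * ng * mu ≤ S ^ (7 / 8 : ℝ) * a ^ (3 / 8 : ℝ) :=
    calc nv * ng * mu ≤ S ^ (3 / 8 : ℝ) * a ^ (3 / 8 : ℝ) * √S :=
          mul_le_mul (mul_le_mul h2 h3 n3 hS3) h4 m1 (mul_nonneg hS3 ha3)
      _ = (S ^ (3 / 8 : ℝ) * √S) * a ^ (3 / 8 : ℝ) := by ring
      _ = _ := by rw [e1]
  linarith

theorem n2_of_avg {Q : Finset (ℤ × ℤ)} {f : ℤ × ℤ → ℝ} {a : ℝ}
    (h : (avg Q fun p => f p ^ 2) ≤ a) : n2 Q f ≤ √a := by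
  unfold H922.n2
  exact Real.sqrt_le_sqrt h

theorem avg_mono {X : Type*} {Q : Finset X} {f g : X → ℝ} (h : ∀ q ∈ Q, f q ≤ g q) :
    avg Q f ≤ avg Q g := by
  unfold Vale.Agent.P141.PL.H315.avg
  exact mul_le_mul_of_nonneg_left (sum_le_sum h) (by positivity)

section box

variable {ι : Type} [Fintype ι] {o : ℤ} {F1 F2 F3 : ℕ → Pt → Pt → ℝ}

/-- **The natural price of a payer on one box.** -/
theorem box_price {P : ℝ} (hP : 0 ≤ P) {j : ℕ} {z : Pt}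
    (h : ∀ a : Tri, cosF o j z (atm a) F1 F2 F3 ≤ P * wP 1 (cube3 j z) a)
    {S a : ℝ} (hS : 0 ≤ S) (ha : 0 ≤ a) (haS : a ≤ S)
    {g : ℤ → ℤ → ℝ} {w v : ℤ → ℤ → ι → ℝ}
    (w1 : ∀ p ∈ iv j z.1 ×ˢ iv j z.2.1, w p.1 p.2 ⬝ᵥ w p.1 p.2 ≤ 1)
    (v1 : ∀ p ∈ iv j z.1 ×ˢ iv j z.2.2, v p.1 p.2 ⬝ᵥ v p.1 p.2 ≤ 1)
    (g1 : ∀ p ∈ iv j z.2.1 ×ˢ iv j z.2.2, |g p.1 p.2| ≤ 1)
    (w2 : (avg (iv j z.1 ×ˢ iv j z.2.1) fun p => w p.1 p.2 ⬝ᵥ w p.1 p.2) ≤ S)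
    (v2 : (avg (iv j z.1 ×ˢ iv j z.2.2) fun p => v p.1 p.2 ⬝ᵥ v p.1 p.2) ≤ S)
    (g2 : (avg (iv j z.2.1 ×ˢ iv j z.2.2) fun p => g p.1 p.2 ^ 2) ≤ a) :
    cosF o j z (H305.cmp g w v) F1 F2 F3 ≤ 18 * P * (S ^ (7 / 8 : ℝ) * (8 ^ j * a ^ (3 / 8 : ℝ))) := by
  rw [cmp_eq]
  refine (comp_cosF hP o j z (fun p => g p.1 p.2) (tE w) (tE v) F1 F2 F3 h).trans ?_
  have u1 : ∀ p ∈ iv j z.1 ×ˢ iv j z.2.1, |(‖tE w p.1 p.2‖ : ℝ)| ≤ 1 := by
    intro p hp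
    have h := w1 p hp
    rw [← tE_sq] at h
    rw [abs_norm]
    nlinarith [norm_nonneg (tE w p.1 p.2)]
  have v1' : ∀ p ∈ iv j z.1 ×ˢ iv j z.2.2, |(‖tE v p.1 p.2‖ : ℝ)| ≤ 1 := by
    intro p hp
    have h := v1 p hp
    rw [← tE_sq] at h
    rw [abs_norm]
    nlinarith [norm_nonneg (tE v p.1 p.2)]
  have u2 : n2 (iv j z.1 ×ˢ iv j z.2.1) (fun p => (‖tE w p.1 p.2‖ : ℝ)) ≤ √S :=
    n2_of_avg (by simpa only [tE_sq] using w2)
  have v2' : n2 (iv j z.1 ×ˢ iv j z.2.2) (fun p => (‖tE v p.1 p.2‖ : ℝ)) ≤ √S :=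
    n2_of_avg (by simpa only [tE_sq] using v2)
  have g2' : n2 (iv j z.2.1 ×ˢ iv j z.2.2) (fun p => g p.1 p.2) ≤ √a := n2_of_avg g2
  have un := nN_le_of hS u1 u2
  have vn := nN_le_of hS v1' v2'
  have gn := nN_le_of ha g1 g2'
  have key := three_le hS ha haS (nN_nonneg _ _) (nN_nonneg _ _) (nN_nonneg _ _)
    (n2_nonneg _ _) (n2_nonneg _ _) (n2_nonneg _ _) un vn gn u2 v2' g2'
  unfold H922.wP H922.pw3 nrt
  rw [card_cube3, nN_e12, nN_e13, nN_e23, n2_e12, n2_e13, n2_e23]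
  push_cast
  calc 6 * P * (1 * (8 : ℝ) ^ j * _) ≤ 6 * P * (1 * (8 : ℝ) ^ j *
        (3 * (S ^ (7 / 8 : ℝ) * a ^ (3 / 8 : ℝ)))) := by
          refine mul_le_mul_of_nonneg_left (mul_le_mul_of_nonneg_left key (by positivity))
            (by positivity)
    _ = _ := by ring

/-- a box which is not alive costs nothing -/
theorem cosA_dead {Λ : ℝ} {U : Tri} {K j : ℕ} {M : Pt} (hd : cst Λ U K j (crn j M)) (F0 : Pt → ℝ) :
    cosA (fun k z => ¬ cst Λ U K k z) o j (crn j M) F0 F1 F2 F3 = 0 := by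
  unfold H579.cosA
  refine sum_eq_zero fun k hk => ?_
  rw [mem_Icc] at hk
  refine mul_eq_zero_of_right _ (sum_eq_zero fun m hm => ?_)
  exfalso
  obtain ⟨hm, hA⟩ := (@Finset.mem_filter _ _ (_) _ _).1 hm
  have h1 := cst_her Λ U K k j hk.2 m hA
  have e1 : cx (j - k) m = M := by
    unfold cbs at hm
    rw [mem_product, mem_product] at hm
    obtain ⟨h2, h3, h4⟩ := hm
    unfold cx crn at h2 h3 h4
    simp only [ix_corner] at h2 h3 h4
    rw [PL.mem_iv] at h2 h3 h4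
    unfold cx
    rw [h2, h3, h4]
  rw [e1] at h1
  exact h1 hd

end box

/-! ### Sub-cubes of the root -/

theorem iv_sub {j K : ℕ} (hj : j ≤ K) {a b : ℤ} (h : a ∈ iv K b) : iv j a ⊆ iv K b := by
  intro c hc
  rw [Vale.Agent.P141.PL.H315.mem_iv] at hc h ⊢
  have e : ∀ y : ℤ, y / 2 ^ K = y / 2 ^ j / 2 ^ (K - j) := by
    intro y
    rw [Int.ediv_ediv_of_nonneg (by positivity), ← pow_add, show j + (K - j) = K by omega]
  rw [← h, e c, hc, ← e a]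

theorem A2_root {K : ℕ} {f : ℤ × ℤ → ℝ} {a b a' b' : ℤ} (h1 : a ∈ iv K a') (h2 : b ∈ iv K b') :
    A2 K f a b = A2 K f a' b' := by
  rw [Vale.Agent.P141.PL.H315.mem_iv] at h1 h2
  unfold Vale.Agent.P141.PL.H315.A2 Vale.Agent.P141.PL.H315.iv
  rw [h1, h2]

/-- Hoelder over a family, exponent `3 / 8` -/
theorem hold38 {X : Type*} (Q : Finset X) {a : X → ℝ} (ha : ∀ q ∈ Q, 0 ≤ a q) :
    ∑ q ∈ Q, a q ^ (3 / 8 : ℝ) ≤ (Q.card : ℝ) ^ (5 / 8 : ℝ) * (∑ q ∈ Q, a q) ^ (3 / 8 : ℝ) := by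
  have h := Real.inner_le_Lp_mul_Lq_of_nonneg Q (f := fun _ => (1 : ℝ))
    (g := fun q => a q ^ (3 / 8 : ℝ)) (p := 8 / 5) (q := 8 / 3)
    (by constructor <;> norm_num) (fun _ _ => zero_le_one)
    (fun q hq => Real.rpow_nonneg (ha q hq) _)
  have e1 : ∑ q ∈ Q, (a q ^ (3 / 8 : ℝ)) ^ (8 / 3 : ℝ) = ∑ q ∈ Q, a q := by
    refine sum_congr rfl fun q hq => ?_
    rw [← Real.rpow_mul (ha q hq)]
    norm_num
  simp only [one_mul, Real.one_rpow, sum_const, nsmul_eq_mul, mul_one, e1] at h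
  have e2 : (1 / (8 / 5) : ℝ) = 5 / 8 := by norm_num
  have e3 : (1 / (8 / 3) : ℝ) = 3 / 8 := by norm_num
  rw [e2, e3] at h
  exact h

section family

variable {ι : Type} [Fintype ι] {o : ℤ} {F1 F2 F3 : ℕ → Pt → Pt → ℝ}

/-- **The price of the removed columns**, point form. -/
theorem removed_price {P : ℝ} (hP : 0 ≤ P) {K : ℕ} {x : Pt} {s r W : ℝ} {U : Tri}
    {g : ℤ → ℤ → ℝ} {u v : ℤ → ℤ → ι → ℝ} (C : Cls K x s r W U g u v) (hs : 0 ≤ s) {Λ : ℝ}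
    (hΛ : 0 ≤ Λ)
    (hnat : ∀ j ≤ K, ∀ z ∈ cube3 K x, ∀ a : Tri,
      cosF o j z (atm a) F1 F2 F3 ≤ P * wP 1 (cube3 j z) a)
    {nw : ℕ → ℤ → ℤ → Prop} (hnw : ∀ j a a' y, ix j a = ix j a' → nw j a y → nw j a' y)
    {g' : ℕ → Pt → ℤ → ℤ → ℝ} {w' : ℕ → Pt → ℤ → ℤ → ι → ℝ}
    (hg' : ∀ j z y w, g' j z y w ^ 2 ≤ if nw j z.1 y then g y w ^ 2 else 0)
    (hw' : ∀ j z a b, w' j z a b ⬝ᵥ w' j z a b ≤ u a b ⬝ᵥ u a b)
    {aff : ℕ → ℤ → ℤ → Prop} {N ρ : ℝ}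
    (hN : ∑ j ∈ range (K + 1),
      (((iv K x.1 ×ˢ iv K x.2.1).filter fun p => aff j p.1 p.2).card : ℝ) ≤ N * 4 ^ K)
    (hρ : ∀ y ∈ iv K x.2.1, ∑ j ∈ range (K + 1),
      (((iv K x.1).filter fun a => nw j a y).card : ℝ) ≤ ρ * 2 ^ K) :
    ∑ j ∈ range (K + 1), ∑ z ∈ cube3 K x with (¬ cst Λ U K j z ∧ aff j z.1 z.2.1),
        (8 ^ j : ℝ)⁻¹ * cosF o j z (H305.cmp (g' j z) (w' j z) v) F1 F2 F3 ≤
      18 * P * ((Λ * s) ^ (7 / 8 : ℝ) * ((N * 8 ^ K) ^ (5 / 8 : ℝ) *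
        (ρ * s * 8 ^ K) ^ (3 / 8 : ℝ))) := by
  set S : ℝ := Λ * s with hSd
  have hS : 0 ≤ S := mul_nonneg hΛ hs
  -- the mass of the gauge on the removed columns
  set a : ℕ → Pt → ℝ := fun j z => avg (cube3 j z) fun q =>
    if nw j q.1 q.2.1 then g q.2.1 q.2.2 ^ 2 else 0 with had
  have ha0 : ∀ j z, 0 ≤ a j z := fun j z => avg_nonneg fun q _ => by
    split_ifs <;> positivity
  have hmem : ∀ z ∈ cube3 K x, z.1 ∈ iv K x.1 ∧ z.2.1 ∈ iv K x.2.1 ∧ z.2.2 ∈ iv K x.2.2 := by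
    intro z hz
    unfold Vale.Agent.P141.PL.H315.cube3 at hz
    rw [mem_product, mem_product] at hz
    exact hz
  -- one box
  have one : ∀ j ∈ range (K + 1), ∀ z ∈ cube3 K x, ¬ cst Λ U K j z →
      (8 ^ j : ℝ)⁻¹ * cosF o j z (H305.cmp (g' j z) (w' j z) v) F1 F2 F3 ≤
        18 * P * (S ^ (7 / 8 : ℝ) * a j z ^ (3 / 8 : ℝ)) := by
    intro j hj z hz hal
    rw [mem_range] at hj
    have hjK : j ≤ K := by omega
    obtain ⟨z1, z2, z3⟩ := hmem z hz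
    have s1 := iv_sub hjK z1
    have s2 := iv_sub hjK z2
    have s3 := iv_sub hjK z3
    obtain ⟨⟨b1, -⟩, ⟨b2, -⟩, ⟨b3, -⟩⟩ := not_cst hal le_rfl hjK
    rw [A2_root z1 z2] at b1
    rw [A2_root z1 z3] at b2
    rw [A2_root z2 z3] at b3
    have c1 : A2 j U.1 z.1 z.2.1 ≤ S := b1.trans (mul_le_mul_of_nonneg_left C.U_u2 hΛ)
    have c2 : A2 j U.2.1 z.1 z.2.2 ≤ S := b2.trans (mul_le_mul_of_nonneg_left C.U_v2 hΛ)
    have c3 : A2 j U.2.2 z.2.1 z.2.2 ≤ S := b3.trans (mul_le_mul_of_nonneg_left C.U_g2 hΛ)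
    -- the mass of the gauge
    have ea : a j z = avg (iv j z.2.1 ×ˢ iv j z.2.2) fun p =>
        if nw j z.1 p.1 then g p.1 p.2 ^ 2 else 0 := by
      rw [← H922.avg_face23]
      refine H922.avg_congr fun q hq => ?_
      have hq1 : ix j q.1 = ix j z.1 := by
        unfold Vale.Agent.P141.PL.H315.cube3 at hq
        rw [mem_product] at hq
        exact Vale.Agent.P141.PL.H315.mem_iv.1 hq.1
      have e : nw j q.1 q.2.1 ↔ nw j z.1 q.2.1 := ⟨hnw j _ _ _ hq1, hnw j _ _ _ hq1.symm⟩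
      simp only [e]
    have hga : (avg (iv j z.2.1 ×ˢ iv j z.2.2) fun p => g' j z p.1 p.2 ^ 2) ≤ a j z := by
      rw [ea]
      exact avg_mono fun p _ => hg' j z p.1 p.2
    have haS : a j z ≤ S := by
      rw [ea]
      refine le_trans (avg_mono fun p _ => ?_) c3
      rw [C.U_g p]
      split_ifs
      · exact le_rfl
      · positivity
    have k := box_price hP (hnat j hjK z hz) hS (ha0 j z) haS (g := g' j z) (w := w' j z) (v := v)
      (fun p hp => by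
        rw [mem_product] at hp
        refine (hw' j z _ _).trans ((C.u_le _ (s1 hp.1) _ (s2 hp.2)).trans ?_)
        exact pow_le_one₀ (C.U_u _ (s1 hp.1) _ (s2 hp.2)).1 (C.U_u _ (s1 hp.1) _ (s2 hp.2)).2)
      (fun p hp => by
        rw [mem_product] at hp
        refine (C.v_le _ (s1 hp.1) _ (s3 hp.2)).trans ?_
        exact pow_le_one₀ (C.U_v _ (s1 hp.1) _ (s3 hp.2)).1 (C.U_v _ (s1 hp.1) _ (s3 hp.2)).2)
      (fun p hp => by
        rw [mem_product] at hp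
        have h1 := C.g_le _ (s2 hp.1) _ (s3 hp.2)
        have h2 := hg' j z p.1 p.2
        have h3 : g' j z p.1 p.2 ^ 2 ≤ 1 := by
          refine h2.trans ?_
          split_ifs
          · rw [← sq_abs]
            exact pow_le_one₀ (abs_nonneg _) h1
          · exact zero_le_one
        exact abs_le_one_iff_mul_self_le_one.2 (by nlinarith))
      (le_trans (avg_mono fun p hp => by
        rw [mem_product] at hp
        exact (hw' j z _ _).trans (C.u_le _ (s1 hp.1) _ (s2 hp.2))) c1)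
      (le_trans (avg_mono fun p hp => by
        rw [mem_product] at hp
        exact C.v_le _ (s1 hp.1) _ (s3 hp.2)) c2)
      hga
    have h8 : (0 : ℝ) < 8 ^ j := by positivity
    calc (8 ^ j : ℝ)⁻¹ * cosF o j z (H305.cmp (g' j z) (w' j z) v) F1 F2 F3
        ≤ (8 ^ j : ℝ)⁻¹ * (18 * P * (S ^ (7 / 8 : ℝ) * (8 ^ j * a j z ^ (3 / 8 : ℝ)))) :=
          mul_le_mul_of_nonneg_left k (by positivity)
      _ = _ := by field_simp
  -- the family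
  set Q : Finset (Σ _ : ℕ, Pt) := (range (K + 1)).sigma fun j =>
    (cube3 K x).filter fun z => ¬ cst Λ U K j z ∧ aff j z.1 z.2.1 with hQ
  have e1 : ∑ j ∈ range (K + 1), ∑ z ∈ cube3 K x with (¬ cst Λ U K j z ∧ aff j z.1 z.2.1),
      (8 ^ j : ℝ)⁻¹ * cosF o j z (H305.cmp (g' j z) (w' j z) v) F1 F2 F3 ≤
      ∑ q ∈ Q, 18 * P * (S ^ (7 / 8 : ℝ) * a q.1 q.2 ^ (3 / 8 : ℝ)) := by
    rw [hQ, sum_sigma]
    refine sum_le_sum fun j hj => sum_le_sum fun z hz => ?_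
    rw [mem_filter] at hz
    exact one j hj z hz.1 hz.2.1
  have e2 := hold38 Q (a := fun q => a q.1 q.2) fun q _ => ha0 _ _
  -- the number of boxes
  have e8 : (8 : ℝ) ^ K = 2 ^ K * 4 ^ K := by rw [← mul_pow]; norm_num
  have e3 : (Q.card : ℝ) ≤ N * 8 ^ K := by
    have h1 : (Q.card : ℝ) ≤ ∑ j ∈ range (K + 1), 2 ^ K *
        (((iv K x.1 ×ˢ iv K x.2.1).filter fun p => aff j p.1 p.2).card : ℝ) := by
      rw [hQ, card_sigma]
      push_cast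
      refine sum_le_sum fun j _ => ?_
      have h2 : (((cube3 K x).filter fun z => ¬ cst Λ U K j z ∧ aff j z.1 z.2.1).card : ℝ) ≤
          (((cube3 K x).filter fun z => aff j z.1 z.2.1).card : ℝ) := by
        have h9 : ((cube3 K x).filter fun z => ¬ cst Λ U K j z ∧ aff j z.1 z.2.1) ⊆
            (cube3 K x).filter fun z => aff j z.1 z.2.1 := by
          intro z hz
          rw [mem_filter] at hz ⊢
          exact ⟨hz.1, hz.2.2⟩
        exact_mod_cast card_le_card h9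
      refine h2.trans (le_of_eq ?_)
      have h3 : (((cube3 K x).filter fun z => aff j z.1 z.2.1).card : ℝ) =
          ∑ z ∈ cube3 K x, if aff j z.1 z.2.1 then (1 : ℝ) else 0 := by
        rw [card_filter]
        push_cast
        rfl
      have h4 := Vale.Agent.P141.PL.H315.sum_box12 (iv K x.1) (iv K x.2.1) (iv K x.2.2)
        (fun p => if aff j p.1 p.2 then (1 : ℝ) else 0)
      rw [h3]
      refine h4.trans ?_
      rw [card_filter, Vale.Agent.P141.PL.H315.card_iv]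
      push_cast
      rfl
    refine h1.trans ?_
    rw [← mul_sum, e8]
    calc (2 : ℝ) ^ K * _ ≤ 2 ^ K * (N * 4 ^ K) := mul_le_mul_of_nonneg_left hN (by positivity)
      _ = _ := by ring
  -- the masses
  have e4 : ∑ q ∈ Q, a q.1 q.2 ≤ ρ * s * 8 ^ K := by
    have hρ0 : 0 ≤ ρ * 2 ^ K :=
      (sum_nonneg fun _ _ => Nat.cast_nonneg _).trans (hρ x.2.1 (by
        rw [Vale.Agent.P141.PL.H315.mem_iv]))
    have h1 : ∑ q ∈ Q, a q.1 q.2 ≤ ∑ j ∈ range (K + 1), ∑ z ∈ cube3 K x, a j z := by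
      rw [hQ, sum_sigma]
      exact sum_le_sum fun j _ => sum_le_sum_of_subset_of_nonneg (filter_subset _ _)
        fun z _ _ => ha0 j z
    have h2 : ∀ j ∈ range (K + 1), ∑ z ∈ cube3 K x, a j z =
        ∑ z ∈ cube3 K x, if nw j z.1 z.2.1 then g z.2.1 z.2.2 ^ 2 else 0 := by
      intro j hj
      rw [mem_range] at hj
      exact Vale.Agent.P141.PL.H315.sum_avg_cubes Vale.Agent.P141.PL.H315.gz
        (show j ≤ K by omega) x fun q => if nw j q.1 q.2.1 then g q.2.1 q.2.2 ^ 2 else 0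
    have h3 : ∀ j ∈ range (K + 1),
        ∑ z ∈ cube3 K x, (if nw j z.1 z.2.1 then g z.2.1 z.2.2 ^ 2 else 0) =
        ∑ y ∈ iv K x.2.1, (∑ w ∈ iv K x.2.2, g y w ^ 2) *
          (((iv K x.1).filter fun a => nw j a y).card : ℝ) := by
      intro j _
      unfold Vale.Agent.P141.PL.H315.cube3
      rw [sum_product, sum_congr rfl fun a _ => sum_product _ _ _, sum_comm]
      refine sum_congr rfl fun y _ => ?_
      rw [card_filter]
      push_cast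
      rw [mul_sum]
      refine sum_congr rfl fun a _ => ?_
      by_cases h : nw j a y
      · simp [h]
      · simp [h]
    have h4 : ∑ j ∈ range (K + 1), ∑ z ∈ cube3 K x, a j z ≤
        ∑ y ∈ iv K x.2.1, (∑ w ∈ iv K x.2.2, g y w ^ 2) * (ρ * 2 ^ K) := by
      rw [sum_congr rfl fun j hj => (h2 j hj).trans (h3 j hj), sum_comm]
      refine sum_le_sum fun y hy => ?_
      rw [← mul_sum]
      exact mul_le_mul_of_nonneg_left (hρ y hy) (sum_nonneg fun _ _ => sq_nonneg _)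
    have h5 : ∑ y ∈ iv K x.2.1, ∑ w ∈ iv K x.2.2, g y w ^ 2 ≤ 4 ^ K * s := by
      have h6 := C.U_g2
      unfold Vale.Agent.P141.PL.H315.A2 Vale.Agent.P141.PL.H315.avg at h6
      rw [card_product, Vale.Agent.P141.PL.H315.card_iv, Vale.Agent.P141.PL.H315.card_iv,
        sum_product] at h6
      have h7 : (4 : ℝ) ^ K = 2 ^ K * 2 ^ K := by rw [← mul_pow]; norm_num
      push_cast at h6
      rw [← h7, inv_mul_le_iff₀ (by positivity)] at h6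
      refine le_trans (le_of_eq ?_) h6
      refine sum_congr rfl fun y _ => sum_congr rfl fun w _ => ?_
      rw [C.U_g (y, w)]
    refine (h1.trans h4).trans ?_
    rw [← sum_mul, e8]
    calc _ ≤ (4 ^ K * s) * (ρ * 2 ^ K) := mul_le_mul_of_nonneg_right h5 hρ0
      _ = _ := by ring
  have e5 : 0 ≤ ∑ q ∈ Q, a q.1 q.2 := sum_nonneg fun q _ => ha0 _ _
  have e6 : (Q.card : ℝ) ^ (5 / 8 : ℝ) * (∑ q ∈ Q, a q.1 q.2) ^ (3 / 8 : ℝ) ≤
      (N * 8 ^ K) ^ (5 / 8 : ℝ) * (ρ * s * 8 ^ K) ^ (3 / 8 : ℝ) :=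
    mul_le_mul (Real.rpow_le_rpow (Nat.cast_nonneg _) e3 (by norm_num))
      (Real.rpow_le_rpow e5 e4 (by norm_num)) (Real.rpow_nonneg e5 _)
      (Real.rpow_nonneg ((Nat.cast_nonneg _).trans e3) _)
  refine e1.trans ?_
  rw [← mul_sum, ← mul_sum]
  exact mul_le_mul_of_nonneg_left (mul_le_mul_of_nonneg_left (e2.trans e6)
    (Real.rpow_nonneg hS _)) (by positivity)

end family

end

end Vale.Agent.P141.H498
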