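import Vale.Agent.P141.H305.TopM
import Vale.Agent.P141.H498.ColPr

/-!
# P141, line (A), version M: the columns on the alive squares

Class data with activity `H305.ClsM`: on a square `(z1, y0)` which is not stopped by the majorant
`U.1`, the density of the active label points, and so every column of `u` and of `v`, is at most
`Rcol = 2 L t ^ (a - 2 - d) √s / r`.  No other stop is needed.

* `densM_sst`, `densM` : the density of the active points;
* `colM_u`, `colM_v` : the columns on alive cells;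
* `densM_node`, `hcolM`, `hcolM_v`, `massM` : the same on the nodes of the tree (indices);
* `hcolM_end`, `hcolM_v_end`, `massM_end` : one scale below an alive square, factors 2 and 4.
-/

namespace Vale.Agent.P141.H498

open Finset
open Vale.Agent.P141.PL (Pt ix cx mem_iv)
open Vale.Agent.P141.PL.H315 (iv Tri A2 avg avg_nonneg cube3 mem_cube3)
open Vale.Agent.P141.PL.H317 (crn)
open Vale.Agent.P141.H48 (cst sst)
open Vale.Agent.P141.H305 (ClsM kapM)

noncomputable section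

open scoped Classical

variable {ι : Type*} [Fintype ι]

theorem iv_ne (m : ℕ) (z : ℤ) : (iv m z).Nonempty := by
  refine card_pos.1 ?_
  rw [Vale.Agent.P141.PL.H315.card_iv]
  positivity

/-- the indicator of the active label points -/
def dns (u v : ℤ → ℤ → ι → ℝ) (z : ℤ) : ℝ :=
  if (∀ y, u z y = 0) ∧ ∀ y, v z y = 0 then 0 else 1

theorem dns_nonneg (u v : ℤ → ℤ → ι → ℝ) (z : ℤ) : 0 ≤ dns u v z := by
  unfold dns
  split_ifs <;> norm_num

theorem dns_le (u v : ℤ → ℤ → ι → ℝ) (z : ℤ) : dns u v z ≤ 1 := by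
  unfold dns
  split_ifs <;> norm_num

/-- the bound of the columns -/
def Rcol (L t a d s r : ℝ) : ℝ := 2 * L * (t ^ (a - 2 - d) * √s) * r⁻¹

theorem Rcol_pos {L t a d s r : ℝ} (hL : 1 ≤ L) (ht : 0 < t) (hs : 0 < s) (hr : 1 ≤ r) :
    0 < Rcol L t a d s r := by
  unfold Rcol
  have h1 := Real.rpow_pos_of_pos ht (a - 2 - d)
  have h2 := Real.sqrt_pos.2 hs
  have h3 : 0 < r := by linarith
  positivity

theorem kapM_pos {L t a s r : ℝ} (hL : 1 ≤ L) (ht : 0 < t) (hs : 0 < s) (hr : 1 ≤ r) :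
    0 < kapM L t a s r := by
  unfold H305.kapM
  have h1 := Real.rpow_pos_of_pos ht (2 - a)
  have h2 := Real.sqrt_pos.2 hs
  have h3 : 0 < r := by linarith
  have h4 : 0 < L := by linarith
  exact mul_pos (inv_pos.2 h4) (lt_min one_pos (by positivity))

/-- the number -/
theorem kap_num {L t a d s r : ℝ} (hL : 1 ≤ L) (ht : 0 < t) (ht1 : t ≤ 1) (ha : a ≤ 1)
    (hd : 0 ≤ d) (hs : 0 < s) (hr : 1 ≤ r) (hrs : r = 1 ∨ r * √s ≤ 2) :
    min 1 ((kapM L t a s r)⁻¹ * (t ^ (-d) * s)) ≤ Rcol L t a d s r := by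
  have hq := Real.sqrt_pos.2 hs
  have hss : √s * √s = s := Real.mul_self_sqrt hs.le
  have hr0 : 0 < r := by linarith
  have hL0 : 0 < L := by linarith
  have hT := Real.rpow_pos_of_pos ht (2 - a)
  have hD := Real.rpow_pos_of_pos ht (-d)
  have hR : 0 < t ^ (a - 2 - d) := Real.rpow_pos_of_pos ht _
  have hR1 : 1 ≤ t ^ (a - 2 - d) :=
    Real.one_le_rpow_of_pos_of_le_one_of_nonpos ht ht1 (by linarith)
  have hDR : t ^ (-d) ≤ t ^ (a - 2 - d) :=
    Real.rpow_le_rpow_of_exponent_ge ht ht1 (by linarith)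
  have hTD : (t ^ (2 - a))⁻¹ * t ^ (-d) = t ^ (a - 2 - d) := by
    rw [← Real.rpow_neg ht.le, ← Real.rpow_add ht]
    congr 1
    ring
  unfold H305.kapM Rcol
  rcases le_total (t ^ (2 - a) * √s * r) 1 with h | h
  · refine (min_le_right _ _).trans ?_
    rw [min_eq_right h]
    have e : (L⁻¹ * (t ^ (2 - a) * √s * r))⁻¹ * (t ^ (-d) * s) =
        L * (((t ^ (2 - a))⁻¹ * t ^ (-d)) * √s) * r⁻¹ := by
      rw [mul_inv, inv_inv, mul_inv, mul_inv]
      have e2 : (√s)⁻¹ * s = √s := by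
        nth_rewrite 2 [← hss]
        rw [← mul_assoc, inv_mul_cancel₀ hq.ne', one_mul]
      calc _ = L * (((t ^ (2 - a))⁻¹ * t ^ (-d)) * ((√s)⁻¹ * s)) * r⁻¹ := by ring
        _ = _ := by rw [e2]
    rw [e, hTD]
    have : 0 ≤ L * (t ^ (a - 2 - d) * √s) * r⁻¹ := by positivity
    nlinarith
  · rw [min_eq_left h, mul_one, inv_inv]
    have key : ∀ w : ℝ, s ≤ w * (2 * √s * r⁻¹) → 0 ≤ w → w ≤ 1 →
        L * (t ^ (-d) * s) ≤ 2 * L * (t ^ (a - 2 - d) * √s) * r⁻¹ := by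
      intro w h1 h2 h3
      have h4 : s ≤ 2 * √s * r⁻¹ := by
        refine h1.trans ?_
        have : 0 ≤ 2 * √s * r⁻¹ := by positivity
        nlinarith
      calc L * (t ^ (-d) * s) ≤ L * (t ^ (a - 2 - d) * (2 * √s * r⁻¹)) := by gcongr
        _ = _ := by ring
    rcases hrs with h1 | h1
    · subst h1
      rcases le_total (√s) 1 with h2 | h2
      · refine (min_le_right _ _).trans (key 1 ?_ zero_le_one le_rfl)
        rw [inv_one]
        nlinarith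
      · refine (min_le_left _ _).trans ?_
        rw [inv_one, mul_one]
        have h5 : 1 ≤ t ^ (a - 2 - d) * √s := by nlinarith
        nlinarith
    · refine (min_le_right _ _).trans (key 1 ?_ zero_le_one le_rfl)
      have h2 : √s ≤ 2 * r⁻¹ := by
        rw [← div_eq_mul_inv, le_div_iff₀ hr0]
        linarith
      calc s = √s * √s := hss.symm
        _ ≤ √s * (2 * r⁻¹) := by gcongr
        _ = _ := by ring

section cells

variable {K : ℕ} {x : Pt} {s r P κ : ℝ} {U : Tri} {g : ℤ → ℤ → ℝ} {u v : ℤ → ℤ → ι → ℝ}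

/-- **The density of the active points on a square which is not stopped by `U.1`.** -/
theorem dens_sst (H : ClsM K x s r P κ U g u v) (hκ : 0 < κ) {Λ : ℝ} (hΛ : 0 ≤ Λ) {k m : ℕ}
    {z1 y0 : ℤ} (hz : z1 ∈ iv K x.1) (hy : y0 ∈ iv K x.2.1) (hkm : k ≤ m) (hmK : m ≤ K)
    (h : ¬ sst Λ U.1 K k z1 y0) : avg (iv m z1) (dns u v) ≤ κ⁻¹ * (Λ * s) := by
  have i1 := iv_sub hmK hz
  have i2 := iv_sub hmK hy
  have h1 := (H579.not_sst h hkm hmK).1
  rw [A2_root hz hy] at h1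
  have h2 : κ * avg (iv m z1) (dns u v) ≤ A2 m U.1 z1 y0 := by
    unfold Vale.Agent.P141.PL.H315.A2
    rw [H550.avg_prod, ← H550.avg_mul_left]
    refine H550.avg_mono fun z' hz' => ?_
    unfold dns
    rcases H.act z' (i1 hz') with h3 | h3
    · have h4 : κ ≤ avg (iv m y0) fun y => U.1 (z', y) ^ 2 := by
        have h5 : (avg (iv m y0) fun _ => κ) ≤ avg (iv m y0) fun y => U.1 (z', y) ^ 2 :=
          H550.avg_mono fun y hy' => h3 y (i2 hy')
        rwa [H550.avg_const (iv_ne m y0)] at h5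
      split_ifs
      · rw [mul_zero]
        exact hκ.le.trans h4
      · rw [mul_one]
        exact h4
    · rw [if_pos h3, mul_zero]
      exact avg_nonneg fun y _ => sq_nonneg _
  have h3 : κ * avg (iv m z1) (dns u v) ≤ Λ * s :=
    h2.trans (h1.trans (mul_le_mul_of_nonneg_left H.U_u2 hΛ))
  rw [← div_eq_inv_mul, le_div_iff₀ hκ]
  linarith

theorem avg_dns_le (Q : Finset ℤ) : avg Q (dns u v) ≤ 1 := by
  rcases Q.eq_empty_or_nonempty with h | h
  · subst h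
    unfold Vale.Agent.P141.PL.H315.avg
    simp
  · have h5 : avg Q (dns u v) ≤ avg Q fun _ => (1 : ℝ) := H550.avg_mono fun y _ => dns_le u v y
    refine h5.trans (le_of_eq ?_)
    unfold Vale.Agent.P141.PL.H315.avg
    rw [sum_const, nsmul_eq_mul, mul_one]
    exact inv_mul_cancel₀ (by exact_mod_cast h.card_pos.ne')

/-- a column of `|u| ^ 2` is at most the density of the active points -/
theorem col_u_le (H : ClsM K x s r P κ U g u v) {m : ℕ} {z1 : ℤ} (hz : z1 ∈ iv K x.1)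
    (hmK : m ≤ K) {y : ℤ} (hy : y ∈ iv K x.2.1) :
    (avg (iv m z1) fun z' => u z' y ⬝ᵥ u z' y) ≤ avg (iv m z1) (dns u v) := by
  refine H550.avg_mono fun z' hz' => ?_
  have hz'' := iv_sub hmK hz hz'
  unfold dns
  split_ifs with h
  · rw [h.1 y, zero_dotProduct]
  · have h1 := H.u_le z' hz'' y hy
    have h2 := H.U_u z' hz'' y hy
    nlinarith

theorem col_v_le (H : ClsM K x s r P κ U g u v) {m : ℕ} {z1 : ℤ} (hz : z1 ∈ iv K x.1)
    (hmK : m ≤ K) {y : ℤ} (hy : y ∈ iv K x.2.2) :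
    (avg (iv m z1) fun z' => v z' y ⬝ᵥ v z' y) ≤ avg (iv m z1) (dns u v) := by
  refine H550.avg_mono fun z' hz' => ?_
  have hz'' := iv_sub hmK hz hz'
  unfold dns
  split_ifs with h
  · rw [h.2 y, zero_dotProduct]
  · have h1 := H.v_le z' hz'' y hy
    have h2 := H.U_v z' hz'' y hy
    nlinarith

end cells

section M

variable {K : ℕ} {x : Pt} {L t a d s r P : ℝ} {U : Tri} {g : ℤ → ℤ → ℝ} {u v : ℤ → ℤ → ι → ℝ}

/-- **The density of the active points**, a square which is not stopped by `U.1`. -/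
theorem densM_sst (H : ClsM K x s r P (kapM L t a s r) U g u v) (hL : 1 ≤ L) (ht : 0 < t)
    (ht1 : t ≤ 1) (ha : a ≤ 1) (hd : 0 ≤ d) (hs : 0 < s) (hr : 1 ≤ r) {k m : ℕ} {z1 y0 : ℤ}
    (hz : z1 ∈ iv K x.1) (hy : y0 ∈ iv K x.2.1) (hkm : k ≤ m) (hmK : m ≤ K)
    (h : ¬ sst (t ^ (-d)) U.1 K k z1 y0) : avg (iv m z1) (dns u v) ≤ Rcol L t a d s r :=
  (le_min (avg_dns_le _) (dens_sst H (kapM_pos hL ht hs hr) (Real.rpow_nonneg ht.le _) hz hy
    hkm hmK h)).trans (kap_num hL ht ht1 ha hd hs hr H.r_le)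

/-- **The density of the active points**, alive cubes. -/
theorem densM (H : ClsM K x s r P (kapM L t a s r) U g u v) (hL : 1 ≤ L) (ht : 0 < t)
    (ht1 : t ≤ 1) (ha : a ≤ 1) (hd : 0 ≤ d) (hs : 0 < s) (hr : 1 ≤ r) {k m : ℕ} {z : Pt}
    (hz : z ∈ cube3 K x) (hkm : k ≤ m) (hmK : m ≤ K)
    (h : ¬ cst (t ^ (-d)) U K k z) : avg (iv m z.1) (dns u v) ≤ Rcol L t a d s r := by
  have hm := mem_cube3.1 hz
  unfold H48.cst at h
  push Not at h
  exact densM_sst H hL ht ht1 ha hd hs hr hm.1 hm.2.1 hkm hmK h.1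

/-- **The columns of `u`**, a square which is not stopped by `U.1`. -/
theorem colM_u_sst (H : ClsM K x s r P (kapM L t a s r) U g u v) (hL : 1 ≤ L) (ht : 0 < t)
    (ht1 : t ≤ 1) (ha : a ≤ 1) (hd : 0 ≤ d) (hs : 0 < s) (hr : 1 ≤ r) {k m : ℕ} {z1 y0 : ℤ}
    (hz : z1 ∈ iv K x.1) (hy : y0 ∈ iv K x.2.1) (hkm : k ≤ m) (hmK : m ≤ K)
    (h : ¬ sst (t ^ (-d)) U.1 K k z1 y0) {y : ℤ} (hy' : y ∈ iv K x.2.1) :
    (avg (iv m z1) fun z' => u z' y ⬝ᵥ u z' y) ≤ Rcol L t a d s r :=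
  (col_u_le H hz hmK hy').trans (densM_sst H hL ht ht1 ha hd hs hr hz hy hkm hmK h)

/-- **The columns of `v`**, a square which is not stopped by `U.1`. -/
theorem colM_v_sst (H : ClsM K x s r P (kapM L t a s r) U g u v) (hL : 1 ≤ L) (ht : 0 < t)
    (ht1 : t ≤ 1) (ha : a ≤ 1) (hd : 0 ≤ d) (hs : 0 < s) (hr : 1 ≤ r) {k m : ℕ} {z1 y0 : ℤ}
    (hz : z1 ∈ iv K x.1) (hy : y0 ∈ iv K x.2.1) (hkm : k ≤ m) (hmK : m ≤ K)
    (h : ¬ sst (t ^ (-d)) U.1 K k z1 y0) {y : ℤ} (hy' : y ∈ iv K x.2.2) :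
    (avg (iv m z1) fun z' => v z' y ⬝ᵥ v z' y) ≤ Rcol L t a d s r :=
  (col_v_le H hz hmK hy').trans (densM_sst H hL ht ht1 ha hd hs hr hz hy hkm hmK h)

/-- **The columns of `u` on alive cells.** -/
theorem colM_u (H : ClsM K x s r P (kapM L t a s r) U g u v) (hL : 1 ≤ L) (ht : 0 < t)
    (ht1 : t ≤ 1) (ha : a ≤ 1) (hd : 0 ≤ d) (hs : 0 < s) (hr : 1 ≤ r) {k m : ℕ} {z : Pt}
    (hz : z ∈ cube3 K x) (hkm : k ≤ m) (hmK : m ≤ K)
    (h : ¬ cst (t ^ (-d)) U K k z) {y : ℤ} (hy : y ∈ iv K x.2.1) :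
    (avg (iv m z.1) fun z' => u z' y ⬝ᵥ u z' y) ≤ Rcol L t a d s r :=
  (col_u_le H (mem_cube3.1 hz).1 hmK hy).trans (densM H hL ht ht1 ha hd hs hr hz hkm hmK h)

/-- **The columns of `v` on alive cells.** -/
theorem colM_v (H : ClsM K x s r P (kapM L t a s r) U g u v) (hL : 1 ≤ L) (ht : 0 < t)
    (ht1 : t ≤ 1) (ha : a ≤ 1) (hd : 0 ≤ d) (hs : 0 < s) (hr : 1 ≤ r) {k m : ℕ} {z : Pt}
    (hz : z ∈ cube3 K x) (hkm : k ≤ m) (hmK : m ≤ K)
    (h : ¬ cst (t ^ (-d)) U K k z) {y : ℤ} (hy : y ∈ iv K x.2.2) :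
    (avg (iv m z.1) fun z' => v z' y ⬝ᵥ v z' y) ≤ Rcol L t a d s r :=
  (col_v_le H (mem_cube3.1 hz).1 hmK hy).trans (densM H hL ht ht1 ha hd hs hr hz hkm hmK h)

end M

/-! ### One scale below, corners -/

/-- the average over a half -/
theorem avg_half {m : ℕ} {z : ℤ} {f : ℤ → ℝ} (hf : ∀ a, 0 ≤ f a) :
    avg (iv m z) f ≤ 2 * avg (iv (m + 1) z) f := by
  unfold Vale.Agent.P141.PL.H315.avg
  rw [Vale.Agent.P141.PL.H315.card_iv, Vale.Agent.P141.PL.H315.card_iv]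
  have hsub : iv m z ⊆ iv (m + 1) z := Vale.Agent.P141.PL.H315.iv_sub m z
  have h1 : ∑ a ∈ iv m z, f a ≤ ∑ a ∈ iv (m + 1) z, f a :=
    sum_le_sum_of_subset_of_nonneg hsub fun a _ _ => hf a
  push_cast
  rw [pow_succ, mul_inv]
  have h2 : (0 : ℝ) < (2 ^ m)⁻¹ := by positivity
  nlinarith

theorem A2_quarter (m : ℕ) (a : ℤ × ℤ → ℝ) (z w : ℤ) : A2 m a z w ≤ 4 * A2 (m + 1) a z w := by
  unfold Vale.Agent.P141.PL.H315.A2
  rw [H550.avg_prod, H550.avg_prod]
  refine (avg_half fun z' => avg_nonneg fun y _ => sq_nonneg _).trans ?_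
  have h : (avg (iv (m + 1) z) fun z' => avg (iv m w) fun y => a (z', y) ^ 2) ≤
      avg (iv (m + 1) z) fun z' => 2 * avg (iv (m + 1) w) fun y => a (z', y) ^ 2 :=
    H550.avg_mono fun z' _ => avg_half fun y => sq_nonneg _
  rw [H550.avg_mul_left] at h
  linarith

/-- the corner of a cell of scale `k` in the root -/
theorem corner_mem {k K : ℕ} (hk : k ≤ K) {X p : ℤ} (hp : p ∈ PL.iv (K - k) (ix K X)) :
    2 ^ k * p ∈ iv K X := by
  have h1 : ix (K - k) p = ix K X := mem_iv.1 hp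
  have h2 : ix K (2 ^ k * p) = ix K X := by
    rw [← h1]
    have e : K = k + (K - k) := by omega
    unfold Vale.Agent.P141.PL.ix
    conv_lhs => rw [e]
    rw [pow_add, ← Int.ediv_ediv_of_nonneg (by positivity)]
    rw [Int.mul_ediv_cancel_left _ (by positivity)]
  exact mem_iv.2 h2

theorem iv_corner (k : ℕ) (p : ℤ) : iv k (2 ^ k * p) = PL.iv k p := by
  show PL.iv k (ix k (2 ^ k * p)) = PL.iv k p
  congr 1
  unfold Vale.Agent.P141.PL.ix
  rw [Int.mul_ediv_cancel_left _ (by positivity)]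

section fields

variable {K : ℕ} {x : Pt} {L t a d s r P : ℝ} {U : Tri} {g : ℤ → ℤ → ℝ} {u v : ℤ → ℤ → ι → ℝ}

/-- **The density of the active points on a node.** -/
theorem densM_node (H : ClsM K x s r P (kapM L t a s r) U g u v) (hL : 1 ≤ L) (ht : 0 < t)
    (ht1 : t ≤ 1) (ha : a ≤ 1) (hd : 0 ≤ d) (hs : 0 < s) (hr : 1 ≤ r) :
    ∀ k ≤ K, ∀ p ∈ PL.iv (K - k) (ix K x.1), ∀ q ∈ PL.iv (K - k) (ix K x.2.1),
      ¬ sst (t ^ (-d)) U.1 K k (2 ^ k * p) (2 ^ k * q) →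
      avg (PL.iv k p) (dns u v) ≤ Rcol L t a d s r := by
  intro k hk p hp q hq h
  have h1 := densM_sst H hL ht ht1 ha hd hs hr (corner_mem hk hp) (corner_mem hk hq) le_rfl hk h
  rwa [iv_corner] at h1

/-- **The columns of `u` on a node whose square is alive.** -/
theorem hcolM (H : ClsM K x s r P (kapM L t a s r) U g u v) (hL : 1 ≤ L) (ht : 0 < t)
    (ht1 : t ≤ 1) (ha : a ≤ 1) (hd : 0 ≤ d) (hs : 0 < s) (hr : 1 ≤ r) :
    ∀ k ≤ K, ∀ p ∈ PL.iv (K - k) (ix K x.1), ∀ q ∈ PL.iv (K - k) (ix K x.2.1),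
      ¬ sst (t ^ (-d)) U.1 K k (2 ^ k * p) (2 ^ k * q) → ∀ y ∈ iv K x.2.1,
      (avg (PL.iv k p) fun z => u z y ⬝ᵥ u z y) ≤ Rcol L t a d s r := by
  intro k hk p hp q hq h y hy
  have h1 := colM_u_sst H hL ht ht1 ha hd hs hr (corner_mem hk hp) (corner_mem hk hq) le_rfl hk h
    hy
  rwa [iv_corner] at h1

/-- **The columns of `v` on a node whose square of `u` is alive.** -/
theorem hcolM_v (H : ClsM K x s r P (kapM L t a s r) U g u v) (hL : 1 ≤ L) (ht : 0 < t)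
    (ht1 : t ≤ 1) (ha : a ≤ 1) (hd : 0 ≤ d) (hs : 0 < s) (hr : 1 ≤ r) :
    ∀ k ≤ K, ∀ p ∈ PL.iv (K - k) (ix K x.1), ∀ q ∈ PL.iv (K - k) (ix K x.2.1),
      ¬ sst (t ^ (-d)) U.1 K k (2 ^ k * p) (2 ^ k * q) → ∀ y ∈ iv K x.2.2,
      (avg (PL.iv k p) fun z => v z y ⬝ᵥ v z y) ≤ Rcol L t a d s r := by
  intro k hk p hp q hq h y hy
  have h1 := colM_v_sst H hL ht ht1 ha hd hs hr (corner_mem hk hp) (corner_mem hk hq) le_rfl hk h
    hy
  rwa [iv_corner] at h1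

/-- **The mass of `u` on a node whose square is alive.** -/
theorem massM (H : ClsM K x s r P (kapM L t a s r) U g u v) (ht : 0 < t) :
    ∀ k ≤ K, ∀ p ∈ PL.iv (K - k) (ix K x.1), ∀ q ∈ PL.iv (K - k) (ix K x.2.1),
      ¬ sst (t ^ (-d)) U.1 K k (2 ^ k * p) (2 ^ k * q) →
      (avg (PL.iv k q) fun y => avg (PL.iv k p) fun z => u z y ⬝ᵥ u z y) ≤ t ^ (-d) * s := by
  intro k hk p hp q hq h
  have c1 := corner_mem hk hp
  have c2 := corner_mem hk hq
  have h1 := (H579.not_sst h le_rfl hk).1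
  rw [A2_root c1 c2] at h1
  have h2 : (avg (PL.iv k q) fun y => avg (PL.iv k p) fun z => u z y ⬝ᵥ u z y) ≤
      A2 k U.1 (2 ^ k * p) (2 ^ k * q) := by
    unfold Vale.Agent.P141.PL.H315.A2
    rw [H550.avg_prod, iv_corner, iv_corner, H550.avg_comm]
    refine H550.avg_mono fun z hz => H550.avg_mono fun y hy => ?_
    rw [← iv_corner] at hz hy
    exact H.u_le z (iv_sub hk c1 hz) y (iv_sub hk c2 hy)
  exact h2.trans (h1.trans (mul_le_mul_of_nonneg_left H.U_u2 (Real.rpow_nonneg ht.le _)))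

/-- **The columns of `u` one scale below an alive square** (field `hcol` of `H576.gapI` and of
`H338.capM`). -/
theorem hcolM_end (H : ClsM K x s r P (kapM L t a s r) U g u v) (hL : 1 ≤ L) (ht : 0 < t)
    (ht1 : t ≤ 1) (ha : a ≤ 1) (hd : 0 ≤ d) (hs : 0 < s) (hr : 1 ≤ r) :
    ∀ k < K, ∀ p ∈ PL.iv (K - k) (ix K x.1), ∀ q ∈ PL.iv (K - k) (ix K x.2.1),
      ¬ sst (t ^ (-d)) U.1 K (k + 1) (2 ^ k * p) (2 ^ k * q) → ∀ y ∈ PL.iv k q,
      (avg (PL.iv k p) fun z => u z y ⬝ᵥ u z y) ≤ 2 * Rcol L t a d s r := by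
  intro k hk p hp q hq h y hy
  have c1 := corner_mem hk.le hp
  have c2 := corner_mem hk.le hq
  have hy' : y ∈ iv K x.2.1 := by
    rw [← iv_corner] at hy
    exact iv_sub hk.le c2 hy
  have h1 := colM_u_sst (m := k + 1) H hL ht ht1 ha hd hs hr c1 c2 le_rfl hk h hy'
  have h2 := avg_half (m := k) (z := 2 ^ k * p) (f := fun z => u z y ⬝ᵥ u z y)
    fun z => sum_nonneg fun i _ => mul_self_nonneg _
  rw [iv_corner] at h2
  linarith

/-- **The columns of `v` one scale below an alive square.** -/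
theorem hcolM_v_end (H : ClsM K x s r P (kapM L t a s r) U g u v) (hL : 1 ≤ L) (ht : 0 < t)
    (ht1 : t ≤ 1) (ha : a ≤ 1) (hd : 0 ≤ d) (hs : 0 < s) (hr : 1 ≤ r) :
    ∀ k < K, ∀ p ∈ PL.iv (K - k) (ix K x.1), ∀ q ∈ PL.iv (K - k) (ix K x.2.1),
      ¬ sst (t ^ (-d)) U.1 K (k + 1) (2 ^ k * p) (2 ^ k * q) → ∀ y ∈ iv K x.2.2,
      (avg (PL.iv k p) fun z => v z y ⬝ᵥ v z y) ≤ 2 * Rcol L t a d s r := by
  intro k hk p hp q hq h y hy
  have c1 := corner_mem hk.le hp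
  have c2 := corner_mem hk.le hq
  have h1 := colM_v_sst (m := k + 1) H hL ht ht1 ha hd hs hr c1 c2 le_rfl hk h hy
  have h2 := avg_half (m := k) (z := 2 ^ k * p) (f := fun z => v z y ⬝ᵥ v z y)
    fun z => sum_nonneg fun i _ => mul_self_nonneg _
  rw [iv_corner] at h2
  linarith

/-- **The mass of `u` one scale below an alive square** (field `hm` of `H576.gapI` and of
`H338.capM`). -/
theorem massM_end (H : ClsM K x s r P (kapM L t a s r) U g u v) (ht : 0 < t) :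
    ∀ k < K, ∀ p ∈ PL.iv (K - k) (ix K x.1), ∀ q ∈ PL.iv (K - k) (ix K x.2.1),
      ¬ sst (t ^ (-d)) U.1 K (k + 1) (2 ^ k * p) (2 ^ k * q) →
      (avg (PL.iv k q) fun y => avg (PL.iv k p) fun z => u z y ⬝ᵥ u z y) ≤
        4 * (t ^ (-d) * s) := by
  intro k hk p hp q hq h
  have c1 := corner_mem hk.le hp
  have c2 := corner_mem hk.le hq
  have h1 := (H579.not_sst h le_rfl hk).1
  rw [A2_root c1 c2] at h1
  have h2 : (avg (PL.iv k q) fun y => avg (PL.iv k p) fun z => u z y ⬝ᵥ u z y) ≤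
      A2 k U.1 (2 ^ k * p) (2 ^ k * q) := by
    unfold Vale.Agent.P141.PL.H315.A2
    rw [H550.avg_prod, iv_corner, iv_corner, H550.avg_comm]
    refine H550.avg_mono fun z hz => H550.avg_mono fun y hy => ?_
    rw [← iv_corner] at hz hy
    exact H.u_le z (iv_sub hk.le c1 hz) y (iv_sub hk.le c2 hy)
  have h3 := A2_quarter k U.1 (2 ^ k * p) (2 ^ k * q)
  have h4 := mul_le_mul_of_nonneg_left H.U_u2 (Real.rpow_nonneg ht.le (-d))
  linarith

end fields

end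

end Vale.Agent.P141.H498
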