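import Vale.Agent.P141.H498.ColPr

/-!
# P141, line (A), (D5): the price of the removed columns in powers of `t` and of the row class

`removed_num`: with `N₀ t ^ (-η) r ^ b₃` affected squares and removed columns of relative length
`ρ₀ t ^ ρ r ^ (-b₂)` the removed payers cost `t ^ (1 + κ / 2) s ^ (5 / 4) √ez 8 ^ K` times
`r ^ (-(3 b₂ - 5 b₃) / 8)`, `κ = 3 ρ / 8 - 5 η / 8 - 7 d / 8`.
-/

namespace Vale.Agent.P141.H498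

open Finset
open Vale.Agent.P141.PL (Pt ix cx)
open Vale.Agent.P141.PL.H315 (iv Tri A2 avg cube3 atm)
open Vale.Agent.P141.H48 (US ES cst Pos2 prE cG cG_nonneg Lam0 one_le_Lam0 genSt)
open Vale.Agent.P141.H572 (cosF)
open Vale.Agent.P141.H922 (wP)
open Vale.Agent.P141.H305 (Cls prE_le)

noncomputable section

open scoped Classical

/-- the natural price of every box below `n`, in powers of `t` -/
theorem nat_price {ε : ℝ} (hε : 0 < ε) (hε' : ε ≤ 1 / 4) {Kt e cP : ℝ} (hKt : 0 < Kt)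
    (he : 1 ≤ e) (hcP : 0 ≤ cP) :
    ∃ C : ℝ, 0 ≤ C ∧ ∀ c : ℝ, 0 ≤ c → ∀ t : ℝ, 0 < t → t ≤ 1 → ∀ (n : ℕ) (ez : ℝ)
      (F1 F2 F3 : ℕ → Pt → ℝ),
      US n (Kt * t ^ (1 - c)) e cP F1 → US n (Kt * t ^ (1 - c)) e cP F3 → ES n ez cP F2 →
      ∀ o : ℤ, o = 1 ∨ o = -1 → ∀ K ≤ n, ∀ (x : Pt) (a : Tri),
        cosF o K x (atm a) (fun k _ => F1 k) (fun k _ => F2 k) (fun k _ => F3 k) ≤
          C * (t ^ (1 - c - 2 * ε) * √ez) * wP 1 (cube3 K x) a := by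
  set A : ℝ := 2 * cG Lam0 cP 240000 cEng ε with hA
  have hA0 : 0 ≤ A := by
    have := cG_nonneg (Λ := Lam0) (cP := cP) (K0 := 240000) (C := cEng) hcP (by norm_num)
      cEng_nonneg hε
    positivity
  have hPos : Pos2 A ε cP := pos2_asm one_le_Lam0 genSt hε hε' hcP
  set B : ℝ := (Kt * Kt) ^ (1 / 2 - ε) * (e * e) ^ (1 / 4 + ε / 2) with hB
  have hB0 : 0 ≤ B := by
    have h3 : 0 ≤ (Kt * Kt) ^ (1 / 2 - ε) := by positivity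
    have h4 : 0 ≤ (e * e) ^ (1 / 4 + ε / 2) := Real.rpow_nonneg (by positivity) _
    positivity
  refine ⟨A * B, by positivity, ?_⟩
  intro c hc t ht ht1 n ez F1 F2 F3 h1 h3 h2 o ho K hKn x a
  have h : cosF o K x (atm a) (fun k _ => F1 k) (fun k _ => F2 k) (fun k _ => F3 k) ≤
      A * prE ε (Kt * t ^ (1 - c)) (Kt * t ^ (1 - c)) e e ez * wP 1 (cube3 K x) a :=
    hPos n _ _ e ez e F1 F2 F3 h1 h3 h2 o ho K hKn x a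
  have hp := prE_le (Kt := Kt) (e := e) (ez := ez) hKt ht ht1 hc hε (by linarith)
  refine h.trans (mul_le_mul_of_nonneg_right ?_ (H922.wP_nonneg zero_le_one _ _))
  calc A * prE ε (Kt * t ^ (1 - c)) (Kt * t ^ (1 - c)) e e ez
      ≤ A * ((Kt * Kt) ^ (1 / 2 - ε) * (e * e) ^ (1 / 4 + ε / 2) * (t ^ (1 - c - 2 * ε) * √ez)) :=
        mul_le_mul_of_nonneg_left hp hA0
    _ = A * B * (t ^ (1 - c - 2 * ε) * √ez) := by rw [hB]; ring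

/-- the powers -/
theorem pow_calc {t s r d η ρ b2 b3 N0 R0 : ℝ} (ht : 0 < t) (hs : 0 < s) (hr : 1 ≤ r)
    (hN0 : 0 ≤ N0) (hR0 : 0 ≤ R0) (K : ℕ) :
    (t ^ (-d) * s) ^ (7 / 8 : ℝ) * ((N0 * (t ^ (-η) * r ^ b3) * 8 ^ K) ^ (5 / 8 : ℝ) *
        (R0 * (t ^ ρ * r ^ (-b2)) * s * 8 ^ K) ^ (3 / 8 : ℝ)) =
      N0 ^ (5 / 8 : ℝ) * R0 ^ (3 / 8 : ℝ) *
        (t ^ (3 * ρ / 8 - 5 * η / 8 - 7 * d / 8) * s ^ (5 / 4 : ℝ) * 8 ^ K *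
          r ^ (-((3 * b2 - 5 * b3) / 8))) := by
  have hr0 : 0 < r := by linarith
  have h8 : (0 : ℝ) ≤ 8 ^ K := by positivity
  rw [Real.mul_rpow (by positivity) hs.le, Real.mul_rpow (by positivity) h8,
    Real.mul_rpow hN0 (by positivity), Real.mul_rpow (by positivity) (by positivity),
    Real.mul_rpow (by positivity) h8, Real.mul_rpow (by positivity) hs.le,
    Real.mul_rpow hR0 (by positivity), Real.mul_rpow (by positivity) (by positivity),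
    ← Real.rpow_mul ht.le, ← Real.rpow_mul ht.le, ← Real.rpow_mul ht.le,
    ← Real.rpow_mul hr0.le, ← Real.rpow_mul hr0.le]
  have e8 : ((8 : ℝ) ^ K) ^ (5 / 8 : ℝ) * ((8 : ℝ) ^ K) ^ (3 / 8 : ℝ) = 8 ^ K := by
    rw [← Real.rpow_add_of_nonneg h8 (by norm_num) (by norm_num)]
    norm_num
  have es : s ^ (7 / 8 : ℝ) * s ^ (3 / 8 : ℝ) = s ^ (5 / 4 : ℝ) := by
    rw [← Real.rpow_add hs]
    norm_num
  have et : t ^ (-d * (7 / 8)) * (t ^ (-η * (5 / 8)) * t ^ (ρ * (3 / 8))) =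
      t ^ (3 * ρ / 8 - 5 * η / 8 - 7 * d / 8) := by
    rw [← Real.rpow_add ht, ← Real.rpow_add ht]
    congr 1
    ring
  have er : r ^ (b3 * (5 / 8)) * r ^ (-b2 * (3 / 8)) = r ^ (-((3 * b2 - 5 * b3) / 8)) := by
    rw [← Real.rpow_add hr0]
    congr 1
    ring
  calc _ = N0 ^ (5 / 8 : ℝ) * R0 ^ (3 / 8 : ℝ) *
        ((t ^ (-d * (7 / 8)) * (t ^ (-η * (5 / 8)) * t ^ (ρ * (3 / 8)))) *
          (s ^ (7 / 8 : ℝ) * s ^ (3 / 8 : ℝ)) *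
          (((8 : ℝ) ^ K) ^ (5 / 8 : ℝ) * ((8 : ℝ) ^ K) ^ (3 / 8 : ℝ)) *
          (r ^ (b3 * (5 / 8)) * r ^ (-b2 * (3 / 8)))) := by ring
    _ = _ := by rw [et, es, e8, er]

/-- **The price of the removed columns in powers.** -/
theorem removed_num {d η ρ : ℝ} (hκ : 0 < 3 * ρ / 8 - 5 * η / 8 - 7 * d / 8)
    (hκ1 : 3 * ρ / 8 - 5 * η / 8 - 7 * d / 8 ≤ 1) {b2 b3 : ℝ} :
    ∃ c1 : ℝ, 0 < c1 ∧ ∀ c : ℝ, 0 ≤ c → c ≤ c1 →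
    ∀ Kt e cP N0 R0 : ℝ, 0 < Kt → 1 ≤ e → 0 ≤ cP → 0 ≤ N0 → 0 ≤ R0 → ∃ C : ℝ, 0 ≤ C ∧
    ∀ t : ℝ, 0 < t → t ≤ 1 → ∀ (n : ℕ) (ez : ℝ) (F1 F2 F3 : ℕ → Pt → ℝ),
      US n (Kt * t ^ (1 - c)) e cP F1 → US n (Kt * t ^ (1 - c)) e cP F3 → ES n ez cP F2 →
    ∀ o : ℤ, o = 1 ∨ o = -1 → ∀ K ≤ n, ∀ (x : Pt) (ι : Type) [Fintype ι]
      (s r W : ℝ) (U : Tri) (g : ℤ → ℤ → ℝ) (u v : ℤ → ℤ → ι → ℝ), 0 < s → 1 ≤ r →
      Cls K x s r W U g u v →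
    ∀ (nw aff : ℕ → ℤ → ℤ → Prop) (g' : ℕ → Pt → ℤ → ℤ → ℝ) (w' : ℕ → Pt → ℤ → ℤ → ι → ℝ),
      (∀ j a a' y, ix j a = ix j a' → nw j a y → nw j a' y) →
      (∀ j z y w, g' j z y w ^ 2 ≤ if nw j z.1 y then g y w ^ 2 else 0) →
      (∀ j z a b, w' j z a b ⬝ᵥ w' j z a b ≤ u a b ⬝ᵥ u a b) →
      (∑ j ∈ range (K + 1),
        (((iv K x.1 ×ˢ iv K x.2.1).filter fun p => aff j p.1 p.2).card : ℝ) ≤
          N0 * (t ^ (-η) * r ^ b3) * 4 ^ K) →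
      (∀ y ∈ iv K x.2.1, ∑ j ∈ range (K + 1),
        (((iv K x.1).filter fun a => nw j a y).card : ℝ) ≤ R0 * (t ^ ρ * r ^ (-b2)) * 2 ^ K) →
      ∑ j ∈ range (K + 1), ∑ z ∈ cube3 K x with (¬ cst (t ^ (-d)) U K j z ∧ aff j z.1 z.2.1),
        (8 ^ j : ℝ)⁻¹ * cosF o j z (H305.cmp (g' j z) (w' j z) v) (fun k _ => F1 k)
          (fun k _ => F2 k) (fun k _ => F3 k) ≤
      C * (t ^ (1 + (3 * ρ / 8 - 5 * η / 8 - 7 * d / 8) / 2) * s ^ (5 / 4 : ℝ) * √ez * 8 ^ K) *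
        r ^ (-((3 * b2 - 5 * b3) / 8)) := by
  set κ : ℝ := 3 * ρ / 8 - 5 * η / 8 - 7 * d / 8 with hκd
  refine ⟨κ / 4, by linarith, ?_⟩
  intro c hc hcc Kt e cP N0 R0 hKt he hcP hN0 hR0
  obtain ⟨C0, hC0, hnat⟩ := nat_price (ε := κ / 8) (by linarith) (by linarith) hKt he hcP
  refine ⟨18 * C0 * (N0 ^ (5 / 8 : ℝ) * R0 ^ (3 / 8 : ℝ)), by positivity, ?_⟩
  intro t ht ht1 n ez F1 F2 F3 h1 h3 h2 o ho K hKn x ι _ s r W U g u v hs hr hC nw aff g' w' hnw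
    hg' hw' hN hρ
  have main := removed_price (o := o) (P := C0 * (t ^ (1 - c - 2 * (κ / 8)) * √ez))
    (by positivity) hC hs.le (Λ := t ^ (-d)) (by positivity)
    (fun j hj z _ a => hnat c hc t ht ht1 n ez F1 F2 F3 h1 h3 h2 o ho j (hj.trans hKn) z a)
    hnw hg' hw' hN hρ
  refine main.trans ?_
  rw [pow_calc ht hs hr hN0 hR0 K]
  have e1 : t ^ (1 - c - 2 * (κ / 8)) * t ^ κ ≤ t ^ (1 + κ / 2) := by
    rw [← Real.rpow_add ht]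
    exact Real.rpow_le_rpow_of_exponent_ge ht ht1 (by linarith)
  have hr0 : 0 < r := by linarith
  calc 18 * (C0 * (t ^ (1 - c - 2 * (κ / 8)) * √ez)) * (N0 ^ (5 / 8 : ℝ) * R0 ^ (3 / 8 : ℝ) *
        (t ^ κ * s ^ (5 / 4 : ℝ) * 8 ^ K * r ^ (-((3 * b2 - 5 * b3) / 8))))
      = 18 * C0 * (N0 ^ (5 / 8 : ℝ) * R0 ^ (3 / 8 : ℝ)) * ((t ^ (1 - c - 2 * (κ / 8)) * t ^ κ) *
        s ^ (5 / 4 : ℝ) * √ez * 8 ^ K) * r ^ (-((3 * b2 - 5 * b3) / 8)) := by ring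
    _ ≤ _ := by gcongr

end

end Vale.Agent.P141.H498
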