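import Vale.Agent.P141.H498.ColM
import Vale.Agent.P141.H576.GapI

/-!
# P141, line (A), version M: the kill on the dense cells of the label vertex

`dnX M u v K k x` : on the cell of `x` of scale `k` or on an ancestor, the density of the active
label points is more than `M`.  It depends on the label vertex only; it is a kill in the sense of
`H576.Dd`, it never happens at an alive node for `M = Rcol`, and where it does not happen the
density of the active points is at most `M` on the cell and on all its ancestors.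
-/

namespace Vale.Agent.P141.H498

open Finset
open Vale.Agent.P141.PL (Pt ix cx mem_iv)
open Vale.Agent.P141.PL.H315 (iv Tri A2 avg avg_nonneg cube3 mem_cube3)
open Vale.Agent.P141.PL.H317 (crn)
open Vale.Agent.P141.H48 (cst sst)
open Vale.Agent.P141.H305 (ClsM kapM)
open Vale.Agent.P141.H576 (Dd Dd_sst)

noncomputable section

open scoped Classical

variable {ι : Type*} [Fintype ι]

/-- the cell of `x` of scale `k` or an ancestor is dense -/
def dnX (M : ℝ) (u v : ℤ → ℤ → ι → ℝ) (K k : ℕ) (x : ℤ) : Prop :=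
  ∃ m, k ≤ m ∧ m ≤ K ∧ M < avg (iv m x) (dns u v)

omit [Fintype ι] in
theorem dnX_congr (M : ℝ) (u v : ℤ → ℤ → ι → ℝ) (K k : ℕ) {x x' : ℤ} (h : ix k x = ix k x') :
    dnX M u v K k x ↔ dnX M u v K k x' := by
  have key : ∀ m, k ≤ m → iv m x = iv m x' := fun m hm => by
    have h1 : ix m x = ix m x' := H769.ix_of_le hm h
    show PL.iv m (ix m x) = PL.iv m (ix m x')
    rw [h1]
  unfold dnX
  constructor
  · rintro ⟨m, h1, h2, h3⟩
    exact ⟨m, h1, h2, by rwa [← key m h1]⟩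
  · rintro ⟨m, h1, h2, h3⟩
    exact ⟨m, h1, h2, by rwa [key m h1]⟩

omit [Fintype ι] in
theorem dnX_mono (M : ℝ) (u v : ℤ → ℤ → ι → ℝ) (K k : ℕ) (x : ℤ) (h : dnX M u v K (k + 1) x) :
    dnX M u v K k x := by
  obtain ⟨m, h1, h2, h3⟩ := h
  exact ⟨m, by omega, h2, h3⟩

omit [Fintype ι] in
theorem dnX_anti {M : ℝ} {u v : ℤ → ℤ → ι → ℝ} {K k l : ℕ} (hkl : k ≤ l) {x : ℤ}
    (h : dnX M u v K l x) : dnX M u v K k x := by
  obtain ⟨m, h1, h2, h3⟩ := h
  exact ⟨m, hkl.trans h1, h2, h3⟩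

omit [Fintype ι] in
/-- **The kill on the dense cells.** -/
theorem Dd_dnX (M : ℝ) (u v : ℤ → ℤ → ι → ℝ) (K : ℕ) : Dd fun k x _ => dnX M u v K k x :=
  ⟨fun k _ _ _ _ hx _ => dnX_congr M u v K k hx, fun k x _ h => dnX_mono M u v K k x h⟩

omit [Fintype ι] in
/-- **The kill of the third family**: the stopped squares of the majorant and the dense cells. -/
theorem Dd_sst_dnX (Λ : ℝ) (a : ℤ × ℤ → ℝ) (M : ℝ) (u v : ℤ → ℤ → ι → ℝ) (K : ℕ) :
    Dd fun k x y => sst Λ a K k x y ∨ dnX M u v K k x :=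
  (Dd_sst Λ a K).or (Dd_dnX M u v K)

omit [Fintype ι] in
/-- where the kill does not happen the density is small, the cell and its ancestors -/
theorem dens_of_not {M : ℝ} {u v : ℤ → ℤ → ι → ℝ} {K k m : ℕ} {x : ℤ} (h : ¬ dnX M u v K k x)
    (h1 : k ≤ m) (h2 : m ≤ K) : avg (iv m x) (dns u v) ≤ M := by
  unfold dnX at h
  push Not at h
  exact h m h1 h2

/-- one scale below -/
theorem dens_of_not_end {M : ℝ} {u v : ℤ → ℤ → ι → ℝ} {K k : ℕ} {x : ℤ}
    (h : ¬ dnX M u v K (k + 1) x) (h2 : k < K) : avg (iv k x) (dns u v) ≤ 2 * M :=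
  (avg_half fun z => dns_nonneg u v z).trans
    (mul_le_mul_of_nonneg_left (dens_of_not h le_rfl h2) (by norm_num))

omit [Fintype ι] in
/-- the number of active points of a cell -/
theorem sum_dns {k : ℕ} {p : ℤ} {B : ℝ} {u v : ℤ → ℤ → ι → ℝ}
    (h : avg (PL.iv k p) (dns u v) ≤ B) : ∑ z ∈ PL.iv k p, dns u v z ≤ 2 ^ k * B := by
  unfold Vale.Agent.P141.PL.H315.avg at h
  rw [PL.card_iv] at h
  push_cast at h
  have h2 : (0 : ℝ) < 2 ^ k := by positivity
  rwa [← div_eq_inv_mul, div_le_iff₀ h2, mul_comm] at h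

section M

variable {K : ℕ} {x : Pt} {L t a d s r P : ℝ} {U : Tri} {g : ℤ → ℤ → ℝ} {u v : ℤ → ℤ → ι → ℝ}

/-- **The dense kill does not happen on a square which is not stopped by `U.1`.** -/
theorem not_dnX (H : ClsM K x s r P (kapM L t a s r) U g u v) (hL : 1 ≤ L) (ht : 0 < t)
    (ht1 : t ≤ 1) (ha : a ≤ 1) (hd : 0 ≤ d) (hs : 0 < s) (hr : 1 ≤ r) {k : ℕ} {z1 y0 : ℤ}
    (hz : z1 ∈ iv K x.1) (hy : y0 ∈ iv K x.2.1)
    (h : ¬ sst (t ^ (-d)) U.1 K k z1 y0) : ¬ dnX (Rcol L t a d s r) u v K k z1 := by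
  rintro ⟨m, h1, h2, h3⟩
  exact absurd (densM_sst H hL ht ht1 ha hd hs hr hz hy h1 h2 h) (not_le.2 h3)

/-- the same on the nodes of the tree -/
theorem not_dnX_node (H : ClsM K x s r P (kapM L t a s r) U g u v) (hL : 1 ≤ L) (ht : 0 < t)
    (ht1 : t ≤ 1) (ha : a ≤ 1) (hd : 0 ≤ d) (hs : 0 < s) (hr : 1 ≤ r) :
    ∀ k ≤ K, ∀ p ∈ PL.iv (K - k) (ix K x.1), ∀ q ∈ PL.iv (K - k) (ix K x.2.1),
      ¬ sst (t ^ (-d)) U.1 K k (2 ^ k * p) (2 ^ k * q) →
      ¬ dnX (Rcol L t a d s r) u v K k (2 ^ k * p) := fun _ hk _ hp _ hq h =>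
  not_dnX H hL ht ht1 ha hd hs hr (corner_mem hk hp) (corner_mem hk hq) h

/-- the same on the alive cubes -/
theorem not_dnX_cube (H : ClsM K x s r P (kapM L t a s r) U g u v) (hL : 1 ≤ L) (ht : 0 < t)
    (ht1 : t ≤ 1) (ha : a ≤ 1) (hd : 0 ≤ d) (hs : 0 < s) (hr : 1 ≤ r) {k : ℕ} {z : Pt}
    (hz : z ∈ cube3 K x) (h : ¬ cst (t ^ (-d)) U K k z) :
    ¬ dnX (Rcol L t a d s r) u v K k z.1 := by
  have hm := mem_cube3.1 hz
  unfold H48.cst at h
  push Not at h
  exact not_dnX H hL ht ht1 ha hd hs hr hm.1 hm.2.1 h.1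

end M

end

end Vale.Agent.P141.H498
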