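import Vale.Agent.P141.H498.S4Add
import Vale.Agent.P141.H498.EnAll

/-!
# P141, line W: (E) with fourth moments as hypothesis

`MS n τ e cP F`: a slot on the boxes whose fourth moments of gauged slices are at most
`τ² e |a|₂² |a|₄²`; `MSl`: the same on the line, for the lift cut to an alive cell.
`costR_cf`: the cost in the pair weight, the face `a` with `MSl`, the face `b` uniform, the face
`c` with bounded energy only; price `prE ε τa tb ea eb ec`.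
-/

namespace Vale.Agent.P141.H498

open Finset Vale.Agent.P141.PL
open Vale.Agent.P141.H315 (dot)
open Vale.Agent.P141.PL.H315 (cube3 mem_cube3 gz avg avg_nonneg Tri)
open Vale.Agent.P141.PL.H318 (ixs mem_gs two_cells_el csz)
open Vale.Agent.P141.PL.H95 (gr)
open Vale.Agent.P141.PL.H321 (t12 t23 u12 u23)
open Vale.Agent.P141.H922 (n2 n4 wP n2_nonneg n4_nonneg wP_nonneg)
open Vale.Agent.P141.H769 (mo4f lft)
open Vale.Agent.P141.H347.Tr (CostR)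
open Vale.Agent.P141.H48
open Vale.Agent.P141.H414 (jf cf sf)

noncomputable section

open scoped Classical

/-! ### Slots with fourth moments -/

/-- a slot on the boxes with fourth moments `τ² e` -/
def MS (n : ℕ) (τ e cP : ℝ) (F : ℕ → Pt → ℝ) : Prop :=
  0 ≤ τ ∧ 0 ≤ e ∧ ∃ Q, BSl n e cP F Q ∧ Mo4 n (τ ^ 2 * e) F

theorem Mo4.mono {n : ℕ} {M M' : ℝ} {F : ℕ → Pt → ℝ} (h : Mo4 n M F) (hM : M ≤ M') :
    Mo4 n M' F := fun k hk m a => (h k hk m a).trans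
  (mul_le_mul_of_nonneg_right hM (mul_nonneg (sq_nonneg _) (sq_nonneg _)))

/-- uniform slots are slots with fourth moments -/
theorem ms_of_us {n : ℕ} {t e cP : ℝ} {F : ℕ → Pt → ℝ} (h : US n t e cP F) :
    MS n (490 * t) e cP F := by
  obtain ⟨ht, hte, hU, Q, hB⟩ := h
  have he : 0 ≤ e := (sq_nonneg _).trans hte
  refine ⟨by positivity, he, Q, hB, Mo4.mono (moUni n t e cP F Q ht he hB hU) ?_⟩
  have : 0 ≤ t ^ 2 * e := by positivity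
  nlinarith

theorem MS.s23 {n : ℕ} {τ e cP : ℝ} {F : ℕ → Pt → ℝ} (h : MS n τ e cP F) :
    MS n τ e cP (fun k => s23 (F k)) := by
  obtain ⟨h1, h2, Q, h3, h4⟩ := h
  refine ⟨h1, h2, _, H414.BSl.s23 h3, ?_⟩
  intro k hk m a
  have h5 := h4 k hk (t23 m) (fun x y => a y x)
  rw [mo4f_swap] at h5
  have e2 : n2 (iv k (t23 m).2.1 ×ˢ iv k (t23 m).2.2) (fun p => a p.2 p.1) =
      n2 (iv k m.2.1 ×ˢ iv k m.2.2) (fun p => a p.1 p.2) := by
    unfold n2 avg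
    rw [card_product, card_product, sum_product_right, sum_product, mul_comm (iv k _).card]
    rfl
  have e4 : n4 (iv k (t23 m).2.1 ×ˢ iv k (t23 m).2.2) (fun p => a p.2 p.1) =
      n4 (iv k m.2.1 ×ˢ iv k m.2.2) (fun p => a p.1 p.2) := by
    unfold H922.n4 avg
    rw [card_product, card_product, sum_product_right, sum_product, mul_comm (iv k _).card]
    rfl
  rw [e2, e4] at h5
  exact h5

/-- the moment slots as slots of `cos0_le` -/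
theorem slM_of {n : ℕ} {τ e cP : ℝ} {F : ℕ → Pt → ℝ} {Q : ℕ → Pt → Prop} (he : 0 ≤ e)
    (hB : BSl n e cP F Q) (h : Mo4 n (τ ^ 2 * e) F) : SlM n τ e 1 cP F Q where
  b := hB
  m0 := moTri n e cP F Q he hB
  m1 := by rw [one_mul]; exact h

/-- the constant -/
def cMS (cP ε : ℝ) : ℝ := 2 * cG Lam0 cP 1 cEng ε

theorem cMS_nonneg {cP ε : ℝ} (hcP : 0 ≤ cP) (hε : 0 < ε) : 0 ≤ cMS cP ε := by
  have h := cG_nonneg (Λ := Lam0) (K0 := 1) hcP (by norm_num) cEng_nonneg hε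
  unfold cMS
  positivity

/-- **(E), `L²` slot `F2`, two slots with fourth moments.** -/
theorem pos2_ms {ε cP : ℝ} (hε : 0 < ε) (hε' : ε ≤ 1 / 4) (hcP : 0 ≤ cP) {n : ℕ}
    {t1 t3 e1 e2 e3 : ℝ} {F1 F2 F3 : ℕ → Pt → ℝ} (h1 : MS n t1 e1 cP F1) (h3 : MS n t3 e3 cP F3)
    (h2 : ES n e2 cP F2) {o : ℤ} (ho : o = 1 ∨ o = -1) {K : ℕ} (hK : K ≤ n) (x : Pt) (u : Tri) :
    cos0 o K x u F1 F2 F3 ≤ cMS cP ε * prE ε t1 t3 e1 e3 e2 * wP 1 (cube3 K x) u := by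
  obtain ⟨ht1, he1, Q1, hB1, hM1⟩ := h1
  obtain ⟨ht3, he3, Q3, hB3, hM3⟩ := h3
  obtain ⟨he2, Q2, hB2⟩ := h2
  have ho' : |o| = 1 := by rcases ho with rfl | rfl <;> simp
  have h := cos0_le one_le_Lam0 cEng_nonneg genSt H784.engF (H769.pthSt Lam0)
    (H769.ownSt one_le_Lam0) hε hε' hcP zero_le_one ht1 ht3 he1 he2 he3
    (slM_of he1 hB1 hM1) (slM_of he3 hB3 hM3) hB2 (moTri n e2 cP F2 Q2 he2 hB2) ho' hK x u
  refine h.trans (le_of_eq ?_)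
  unfold cMS
  ring

/-- **(E), `L²` slot `F3`.** -/
theorem pos3_ms {ε cP : ℝ} (hε : 0 < ε) (hε' : ε ≤ 1 / 4) (hcP : 0 ≤ cP) {n : ℕ}
    {t1 t2 e1 e2 e3 : ℝ} {F1 F2 F3 : ℕ → Pt → ℝ} (h1 : MS n t1 e1 cP F1) (h2 : MS n t2 e2 cP F2)
    (h3 : ES n e3 cP F3) {o : ℤ} (ho : o = 1 ∨ o = -1) {K : ℕ} (hK : K ≤ n) (x : Pt) (u : Tri) :
    cos0 o K x u F1 F2 F3 ≤ cMS cP ε * prE ε t1 t2 e1 e2 e3 * wP 1 (cube3 K x) u := by
  have h4 := pos2_ms hε hε' hcP (MS.s23 h1) h2 h3 ho hK (t23 x) (u23 u)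
  rwa [H414.cos0_t23, H414.wP_t23] at h4

/-- **(E), `L²` slot `F1`.** -/
theorem pos1_ms {ε cP : ℝ} (hε : 0 < ε) (hε' : ε ≤ 1 / 4) (hcP : 0 ≤ cP) {n : ℕ}
    {t2 t3 e1 e2 e3 : ℝ} {F1 F2 F3 : ℕ → Pt → ℝ} (h2 : MS n t2 e2 cP F2) (h3 : MS n t3 e3 cP F3)
    (h1 : ES n e1 cP F1) {o : ℤ} (ho : o = 1 ∨ o = -1) {K : ℕ} (hK : K ≤ n) (x : Pt) (u : Tri) :
    cos0 o K x u F1 F2 F3 ≤ cMS cP ε * prE ε t2 t3 e2 e3 e1 * wP 1 (cube3 K x) u := by
  have h4 := pos2_ms hε hε' hcP h2 (MS.s23 h3) h1 ho hK (t12 x) (u12 u)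
  rwa [H414.cos0_t12, H414.wP_t12] at h4

/-- the cost in any position of the `L²` slot -/
theorem cos0_ms {ε cP : ℝ} (hε : 0 < ε) (hε' : ε ≤ 1 / 4) (hcP : 0 ≤ cP) {n : ℕ}
    {F : Fin 3 → ℕ → Pt → ℝ} {pa pb pc : Fin 3} (hd : [pa, pb, pc].Nodup) {ta tb ea eb ec : ℝ}
    (ha : MS n ta ea cP (F pa)) (hb : MS n tb eb cP (F pb)) (hc : ES n ec cP (F pc)) {o : ℤ}
    (ho : o = 1 ∨ o = -1) {K : ℕ} (hK : K ≤ n) (x : Pt) (u : Tri) :
    cos0 o K x u (F 0) (F 1) (F 2) ≤ cMS cP ε * prE ε ta tb ea eb ec * wP 1 (cube3 K x) u := by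
  obtain ⟨rfl, rfl, rfl⟩ | ⟨rfl, rfl, rfl⟩ | ⟨rfl, rfl, rfl⟩ | ⟨rfl, rfl, rfl⟩ | ⟨rfl, rfl, rfl⟩ |
    ⟨rfl, rfl, rfl⟩ := H414.fin3_cases pa pb pc hd
  · exact pos3_ms hε hε' hcP ha hb hc ho hK x u
  · rw [H414.prE_comm]; exact pos3_ms hε hε' hcP hb ha hc ho hK x u
  · exact pos2_ms hε hε' hcP ha hb hc ho hK x u
  · rw [H414.prE_comm]; exact pos2_ms hε hε' hcP hb ha hc ho hK x u
  · exact pos1_ms hε hε' hcP ha hb hc ho hK x u
  · rw [H414.prE_comm]; exact pos1_ms hε hε' hcP hb ha hc ho hK x u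

/-! ### From the line to the boxes -/

/-- fourth moments of the gauged slices of the lift cut to an alive cell, slices in the first
coordinate of the linear form `c` -/
def MSl (c0 : ℕ) (σ : ℤ) (al : ℕ → ℤ → Prop) (n : ℕ) (c : Pt) (M : ℝ) (f : ℤ → ℝ) : Prop :=
  ∀ k, 1 ≤ k → k ≤ n → ∀ s, al k s → ∀ (q : Pt) (a : ℤ → ℤ → ℝ),
    mo4f (PL.H315.iv k q.1) (PL.H315.iv k q.2.1) (PL.H315.iv k q.2.2) a
      (lft c ((gr c0 σ).cube k s) f) ≤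
    M * (n2 (PL.H315.iv k q.2.1 ×ˢ PL.H315.iv k q.2.2) (fun p => a p.1 p.2) ^ 2 *
      n4 (PL.H315.iv k q.2.1 ×ˢ PL.H315.iv k q.2.2) (fun p => a p.1 p.2) ^ 2)

theorem card_iv2 (k : ℕ) (x : ℤ) :
    ((PL.H315.iv (k + 1) x).card : ℝ) = 2 * (PL.H315.iv k x).card := by
  rw [PL.H315.card_iv, PL.H315.card_iv]
  push_cast
  ring

/-- **Two cells, one scale down, fourth moments.** -/
theorem mo4_kl {c0 : ℕ} (hc0 : 7 ≤ c0) {σ : ℤ} {al : ℕ → ℤ → Prop} (ha : Alv c0 σ al) {n : ℕ}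
    {c : Pt} (a1' : |c.1| ≤ 3) (a2' : |c.2.1| ≤ 3) (a3' : |c.2.2| ≤ 3) {M : ℝ} (hM : 0 ≤ M)
    {f : ℤ → ℝ} (h : MSl c0 σ al n c M f) : Mo4 n (128 * M) (fun k p => kl al f k (el c p)) := by
  intro k hk m a
  set q : Pt := (2 ^ k * m.1, 2 ^ k * m.2.1, 2 ^ k * m.2.2) with hq
  have e1 : iv k m.1 = PL.H315.iv k q.1 := (H206.iv_eq k m.1).symm
  have e2 : iv k m.2.1 = PL.H315.iv k q.2.1 := (H206.iv_eq k m.2.1).symm
  have e3 : iv k m.2.2 = PL.H315.iv k q.2.2 := (H206.iv_eq k m.2.2).symm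
  rw [e1, e2, e3]
  set B := PL.H315.iv k q.2.1 with hB
  set C := PL.H315.iv k q.2.2 with hC
  set B' := PL.H315.iv (k + 1) q.2.1 with hB'
  set C' := PL.H315.iv (k + 1) q.2.2 with hC'
  set N : ℝ := n2 (B ×ˢ C) (fun p => a p.1 p.2) ^ 2 * n4 (B ×ˢ C) (fun p => a p.1 p.2) ^ 2 with hN
  have hN0 : 0 ≤ N := mul_nonneg (sq_nonneg _) (sq_nonneg _)
  set b : ℤ → ℤ → ℝ := fun x y => if x ∈ B ∧ y ∈ C then a x y else 0 with hb
  have hbN : n2 (B' ×ˢ C') (fun p => b p.1 p.2) ^ 2 * n4 (B' ×ˢ C') (fun p => b p.1 p.2) ^ 2 ≤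
      1 / 4 * N := by
    have e0 : (fun p : ℤ × ℤ => b p.1 p.2) =
        fun p => if p ∈ B ×ˢ C then (fun p : ℤ × ℤ => a p.1 p.2) p else 0 := by
      funext p
      simp only [hb, mem_product]
    rw [e0, H205.n2_cut (H205.sq_sub k q.2.1 q.2.2) (H205.sq_card k q.2.1 q.2.2)]
    have h4 := H205.n4_cut (H205.sq_sub k q.2.1 q.2.2) (H205.sq_card k q.2.1 q.2.2)
      (fun p : ℤ × ℤ => a p.1 p.2)
    have h5 := pow_le_pow_left₀ (n4_nonneg _ _) h4 2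
    have h6 := n2_nonneg (B ×ˢ C) (fun p : ℤ × ℤ => a p.1 p.2)
    have h7 := mul_le_mul_of_nonneg_left h5
      (sq_nonneg (1 / 2 * n2 (B ×ˢ C) (fun p : ℤ × ℤ => a p.1 p.2)))
    refine h7.trans (le_of_eq ?_)
    rw [hN]
    ring
  obtain ⟨m0, hm0⟩ := two_cells_el (c0 := c0) (σ := σ) (H205.csz_le a1' a2' a3' hc0) (k + 1) q
  set G : ℤ → Pt → ℝ := fun m' p =>
    if ixs c0 σ (k + 1) (el c p) = m' then kl al f (k + 1) (el c p) else 0 with hG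
  -- one cell
  have key : ∀ m' : ℤ, mo4f (PL.H315.iv k q.1) B C a (G m') ≤ 8 * M * N := by
    intro m'
    refine (mo4f_cut (H205.iv_sub k q.1) (H205.iv_sub k q.2.1) (H205.iv_sub k q.2.2)
      (card_iv2 k q.1) (card_iv2 k q.2.1) (card_iv2 k q.2.2) a (G m')).trans ?_
    by_cases hex : ∃ s, ixs c0 σ (k + 1) s = m' ∧ al (k + 1) s
    · obtain ⟨s, hs, hAs⟩ := hex
      have e4 : G m' = lft c ((gr c0 σ).cube (k + 1) s) f := by
        funext p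
        simp only [hG]
        unfold lft
        by_cases hp : ixs c0 σ (k + 1) (el c p) = m'
        · have h2 : el c p ∈ (gr c0 σ).cube (k + 1) s := mem_gs.mpr (by rw [hp, hs])
          have h3 : al (k + 1) (el c p) := (ha.const (k + 1) s _ (by rw [hp, hs])).mpr hAs
          rw [if_pos hp, if_pos h2]
          unfold kl
          rw [if_pos h3]
        · have h2 : el c p ∉ (gr c0 σ).cube (k + 1) s := fun h => hp (by rw [mem_gs.mp h, hs])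
          rw [if_neg hp, if_neg h2]
      rw [e4]
      have h1 := h (k + 1) (by omega) (by omega) s hAs q b
      have h2 := mul_le_mul_of_nonneg_left hbN hM
      have h3 := h1.trans h2
      have h4 := mul_le_mul_of_nonneg_left h3 (by norm_num : (0 : ℝ) ≤ 32)
      refine h4.trans (le_of_eq ?_)
      ring
    · have e4 : G m' = fun _ => 0 := by
        funext p
        simp only [hG]
        by_cases hp : ixs c0 σ (k + 1) (el c p) = m'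
        · have h3 : ¬ al (k + 1) (el c p) := fun h => hex ⟨el c p, hp, h⟩
          rw [if_pos hp]
          unfold kl
          rw [if_neg h3]
        · rw [if_neg hp]
      rw [e4, mo4f_zero, mul_zero]
      exact mul_nonneg (mul_nonneg (by norm_num) hM) hN0
  have hsub : cube3 k q ⊆ cube3 (k + 1) q := gz.sub_le (Nat.le_succ k) q
  have e5 : mo4f (PL.H315.iv k q.1) B C a (fun p => kl al f (k + 1) (el c p)) =
      mo4f (PL.H315.iv k q.1) B C a (fun p => G m0 p + G (m0 + 1) p) := by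
    refine mo4f_congr fun z hz x hx y hy => ?_
    have hmem : ((z, x, y) : Pt) ∈ cube3 (k + 1) q :=
      hsub (mem_cube3.mpr ⟨hz, hx, hy⟩)
    congr 1
    simp only [hG]
    rcases hm0 _ hmem with h | h
    · have h' : ixs c0 σ (k + 1) (el c (z, x, y)) ≠ m0 + 1 := by omega
      rw [if_pos h, if_neg h', add_zero]
    · have h' : ixs c0 σ (k + 1) (el c (z, x, y)) ≠ m0 := by omega
      rw [if_pos h, if_neg h', zero_add]
  show mo4f (PL.H315.iv k q.1) B C a (fun p => kl al f (k + 1) (el c p)) ≤ 128 * M * N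
  rw [e5]
  refine (mo4f_add_le _ _ _ _ _ _).trans ?_
  have k1 := key m0
  have k2 := key (m0 + 1)
  linarith

/-- the box slot of a static function with fourth moments -/
theorem ms_kl {c0 : ℕ} (hc0 : 7 ≤ c0) {σ : ℤ} {al : ℕ → ℤ → Prop} (ha : Alv c0 σ al) {n : ℕ}
    {c : Pt} (h1 : c.1 ≠ 0) (h2 : c.2.1 ≠ 0) (h3 : c.2.2 ≠ 0) (a1' : |c.1| ≤ 3)
    (a2' : |c.2.1| ≤ 3) (a3' : |c.2.2| ≤ 3) {τ e : ℝ} (hτ : 0 ≤ τ) (he : 0 ≤ e) {f : ℤ → ℝ}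
    (hE : ESl c0 σ al n e f) (h : MSl c0 σ al n c (τ ^ 2 * e) f) :
    MS n (2 ^ (c0 + 2) * τ) ((2 ^ (c0 + 2)) ^ 2 * e) 52 (fun k p => kl al f k (el c p)) := by
  have hT : (512 : ℝ) ≤ 2 ^ (c0 + 2) := by
    calc (512 : ℝ) = 2 ^ (7 + 2) := by norm_num
      _ ≤ 2 ^ (c0 + 2) := pow_le_pow_right₀ (by norm_num) (by omega)
  refine ⟨by positivity, by positivity, H205.QA al c,
    H205.BSl.mono (H205.bsl_kl hc0 ha h1 h2 h3 a1' a2' a3' he hE) ?_,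
    Mo4.mono (mo4_kl hc0 ha a1' a2' a3' (by positivity) h) ?_⟩
  · have h5 : (0 : ℝ) ≤ 2 ^ (c0 + 2) * e := by positivity
    nlinarith
  · have h5 : 0 ≤ τ ^ 2 * e := by positivity
    have h6 : (128 : ℝ) ≤ (2 ^ (c0 + 2)) ^ 4 := by
      have h7 : (512 : ℝ) ^ 4 ≤ (2 ^ (c0 + 2)) ^ 4 := pow_le_pow_left₀ (by norm_num) hT 4
      linarith
    calc 128 * (τ ^ 2 * e) ≤ (2 ^ (c0 + 2)) ^ 4 * (τ ^ 2 * e) :=
          mul_le_mul_of_nonneg_right h6 h5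
      _ = _ := by ring

/-! ### The cost -/

theorem prE_mul {ε c ta tb ea eb ec : ℝ} (hc : 0 ≤ c) (hta : 0 ≤ ta) (htb : 0 ≤ tb) :
    prE ε ta (c * tb) ea eb ec = c ^ (1 / 2 - ε) * prE ε ta tb ea eb ec := by
  unfold prE
  rw [show ta * (c * tb) = c * (ta * tb) by ring, Real.mul_rpow hc (mul_nonneg hta htb)]
  ring

/-- the constant of `costR_cf` -/
def cCF (ε : ℝ) : ℝ := cMS 52 ε * (2 ^ (7 + 2)) ^ (5 / 2 : ℝ)

theorem cCF_nonneg {ε : ℝ} (hε : 0 < ε) : 0 ≤ cCF ε := by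
  have h := cMS_nonneg (cP := 52) (by norm_num) hε
  unfold cCF
  positivity

/-- **C9, both slots with fourth moments.** -/
theorem costR_mm {ε : ℝ} (hε : 0 < ε) (hε' : ε ≤ 1 / 4) {σ : ℤ} {al : ℕ → ℤ → Prop}
    (hal : Alv 7 σ al) {n : ℕ} {f : Fin 4 → ℤ → ℝ} {i a b c : Fin 4} (hd : [i, a, b, c].Nodup)
    {ta tb ea eb ec : ℝ} (hta : 0 ≤ ta) (htb : 0 ≤ tb) (hea : 0 ≤ ea) (heb : 0 ≤ eb)
    (hec : 0 ≤ ec) (Ea : ESl 7 σ al n ea (f a)) (Eb : ESl 7 σ al n eb (f b))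
    (Ec : ESl 7 σ al n ec (f c))
    (Ma : ∀ p, jf i p = a → MSl 7 σ al n (cf i p) (ta ^ 2 * ea) (f a))
    (Mb : ∀ p, jf i p = b → MSl 7 σ al n (cf i p) (tb ^ 2 * eb) (f b)) {o : ℤ}
    (ho : o = 1 ∨ o = -1) {K : ℕ} (hK : K ≤ n) :
    CostR i o K (cCF ε * prE ε ta tb ea eb ec) (fun K p u => wP 1 (cube3 K p) u)
      (fun k _ j => kl al (f j) k) := by
  rw [H414.costR_iff]
  intro x u
  obtain ⟨pa, pb, pc, hp, rfl, rfl, rfl⟩ := H414.pos_ex i a b c hd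
  have ga := H414.cf_good i pa
  have gb := H414.cf_good i pb
  have gc := H414.cf_good i pc
  have ha := ms_kl (c0 := 7) le_rfl hal ga.1 ga.2.1 ga.2.2.1 ga.2.2.2.1 ga.2.2.2.2.1 ga.2.2.2.2.2
    hta hea Ea (Ma pa rfl)
  have hb := ms_kl (c0 := 7) le_rfl hal gb.1 gb.2.1 gb.2.2.1 gb.2.2.2.1 gb.2.2.2.2.1 gb.2.2.2.2.2
    htb heb Eb (Mb pb rfl)
  have hc := (H205.cmpSt_holds (c0 := 7) le_rfl σ al hal n (cf i pc) gc.1 gc.2.1 gc.2.2.1
    gc.2.2.2.1 gc.2.2.2.2.1 gc.2.2.2.2.2 ec (f (jf i pc)) hec Ec).1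
  have h := cos0_ms (F := sf al f i) hε hε' (by norm_num) hp ha hb hc ho hK x u
  rw [H414.prE_smul (by positivity) hta htb hea heb hec] at h
  refine h.trans (le_of_eq ?_)
  unfold cCF
  ring

/-- **C9: the face `a` with fourth moments, the face `b` uniform, the face `c` only in `L²`.** -/
theorem costR_cf {ε : ℝ} (hε : 0 < ε) (hε' : ε ≤ 1 / 4) {σ : ℤ} {al : ℕ → ℤ → Prop}
    (hal : Alv 7 σ al) {n : ℕ} {f : Fin 4 → ℤ → ℝ} {i a b c : Fin 4} (hd : [i, a, b, c].Nodup)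
    {ta tb ea eb ec : ℝ} (hta : 0 ≤ ta) (htb : 0 ≤ tb) (hea : 0 ≤ ea) (htb2 : tb ^ 2 ≤ eb)
    (hec : 0 ≤ ec) (Ea : ESl 7 σ al n ea (f a)) (Eb : ESl 7 σ al n eb (f b))
    (Ec : ESl 7 σ al n ec (f c))
    (Ma : ∀ p, jf i p = a → MSl 7 σ al n (cf i p) (ta ^ 2 * ea) (f a))
    (Ub : USl 7 σ al n (fc b) tb (f b)) {o : ℤ} (ho : o = 1 ∨ o = -1) {K : ℕ} (hK : K ≤ n) :
    CostR i o K (23 * cCF ε * prE ε ta tb ea eb ec) (fun K p u => wP 1 (cube3 K p) u)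
      (fun k _ j => kl al (f j) k) := by
  rw [H414.costR_iff]
  intro x u
  obtain ⟨pa, pb, pc, hp, rfl, rfl, rfl⟩ := H414.pos_ex i a b c hd
  have heb : 0 ≤ eb := (sq_nonneg tb).trans htb2
  have ga := H414.cf_good i pa
  have gb := H414.cf_good i pb
  have gc := H414.cf_good i pc
  have ha := ms_kl (c0 := 7) le_rfl hal ga.1 ga.2.1 ga.2.2.1 ga.2.2.2.1 ga.2.2.2.2.1 ga.2.2.2.2.2
    hta hea Ea (Ma pa rfl)
  have hb := ms_of_us ((H205.cmpSt_holds (c0 := 7) le_rfl σ al hal n (cf i pb) gb.1 gb.2.1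
    gb.2.2.1 gb.2.2.2.1 gb.2.2.2.2.1 gb.2.2.2.2.2 eb (f (jf i pb)) heb Eb).2 tb htb htb2
    (H414.usl_cf i pb Ub))
  have hc := (H205.cmpSt_holds (c0 := 7) le_rfl σ al hal n (cf i pc) gc.1 gc.2.1 gc.2.2.1
    gc.2.2.2.1 gc.2.2.2.2.1 gc.2.2.2.2.2 ec (f (jf i pc)) hec Ec).1
  have h := cos0_ms (F := sf al f i) hε hε' (by norm_num) hp ha hb hc ho hK x u
  rw [prE_mul (by norm_num) (by positivity) (by positivity),
    H414.prE_smul (by positivity) hta htb hea heb hec] at h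
  have h490 : (490 : ℝ) ^ (1 / 2 - ε) ≤ 23 := by
    calc (490 : ℝ) ^ (1 / 2 - ε) ≤ (490 : ℝ) ^ (1 / 2 : ℝ) :=
          Real.rpow_le_rpow_of_exponent_le (by norm_num) (by linarith)
      _ = √490 := (Real.sqrt_eq_rpow 490).symm
      _ ≤ 23 := Real.sqrt_le_iff.mpr ⟨by norm_num, by norm_num⟩
  have hw := wP_nonneg (δ := 1) zero_le_one (cube3 K x) u
  have hp0 : 0 ≤ prE ε ta tb ea eb ec := by
    unfold prE
    have := Real.rpow_nonneg (mul_nonneg hta htb) (1 / 2 - ε)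
    have := Real.rpow_nonneg (mul_nonneg hea heb) (1 / 4 + ε / 2)
    have := Real.rpow_nonneg hec (1 / 2 : ℝ)
    positivity
  have hc0 := cMS_nonneg (cP := 52) (by norm_num) hε
  have h5 : 0 ≤ cCF ε * prE ε ta tb ea eb ec * wP 1 (cube3 K x) u :=
    mul_nonneg (mul_nonneg (cCF_nonneg hε) hp0) hw
  calc cos0 o K x u (sf al f i 0) (sf al f i 1) (sf al f i 2)
      ≤ 490 ^ (1 / 2 - ε) * (cCF ε * prE ε ta tb ea eb ec * wP 1 (cube3 K x) u) := by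
        refine h.trans (le_of_eq ?_)
        unfold cCF
        ring
    _ ≤ 23 * (cCF ε * prE ε ta tb ea eb ec * wP 1 (cube3 K x) u) :=
        mul_le_mul_of_nonneg_right h490 h5
    _ = _ := by ring

end

end Vale.Agent.P141.H498
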