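import Vale.Agent.P141.H958.WeakW

/-!
# P141: packing of the nodes which lie over affected squares of another face

`Q` a family of squares of one face, packed at every square of scale `j`; the nodes of the plane
sequence `c` over these squares, seen on another face, are packed as well, with `5 B`.
-/

namespace Vale.Agent.P141.H498

open Finset Vale.Agent.P141.PL Vale.Agent.P141.PL.H588

noncomputable section

open scoped Classical

/-- the plane numbers of the scales `k ≤ j` -/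
theorem pl_range {c : ℕ → ℤ} (hc : Pl c) (k d : ℕ) :
    0 ≤ c k - 2 ^ d * c (k + d) ∧ c k - 2 ^ d * c (k + d) ≤ 3 * 2 ^ d - 3 := by
  induction d with
  | zero => simp
  | succ d ih =>
    have h := hc (k + d)
    rw [← add_assoc, pow_succ]
    have h2 : (0 : ℤ) < 2 ^ d := by positivity
    constructor
    · nlinarith [ih.1, h.1]
    · nlinarith [ih.2, h.2]

/-- the cell of the third index -/
theorem third_cell {c : ℕ → ℤ} (hc : Pl c) {k d : ℕ} {n m r s : ℤ} (hr : r ∈ iv d n)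
    (hs : s ∈ iv d m) :
    ix d (c k - r - s) - (c (k + d) - n - m) ∈ Icc (-2 : ℤ) 2 := by
  have h := pl_range hc k d
  have h2 : (0 : ℤ) < 2 ^ d := by positivity
  unfold Vale.Agent.P141.PL.iv at hr hs
  rw [mem_Ico] at hr hs
  unfold Vale.Agent.P141.PL.ix
  have e : c k - r - s = (c k - 2 ^ d * c (k + d)) - (r - 2 ^ d * n) - (s - 2 ^ d * m) +
      2 ^ d * (c (k + d) - n - m) := by ring
  rw [e, Int.add_mul_ediv_left _ _ h2.ne', mem_Icc, add_sub_cancel_right]
  constructor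
  · rw [Int.le_ediv_iff_mul_le h2]
    linarith
  · rw [← Int.lt_add_one_iff, Int.ediv_lt_iff_lt_mul h2]
    linarith

/-- **Packing over a plane.** -/
theorem pack_plane {c : ℕ → ℤ} (hc : Pl c) {B : ℝ} {Q : ℕ → ℤ → ℤ → Prop} {j : ℕ}
    (hB : ∀ n q, ∑ k ∈ range (j + 1), ∑ r ∈ iv (j - k) n, ∑ y ∈ iv (j - k) q,
      (if Q k r y then (4 : ℝ) ^ k else 0) ≤ B * 4 ^ j) (n m : ℤ) :
    ∑ k ∈ range (j + 1), ∑ r ∈ iv (j - k) n, ∑ s ∈ iv (j - k) m,
      (if Q k r (c k - r - s) then (4 : ℝ) ^ k else 0) ≤ 5 * B * 4 ^ j := by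
  have one : ∀ k ∈ range (j + 1), ∀ r ∈ iv (j - k) n, ∑ s ∈ iv (j - k) m,
      (if Q k r (c k - r - s) then (4 : ℝ) ^ k else 0) ≤
      ∑ t ∈ Icc (-2 : ℤ) 2, ∑ y ∈ iv (j - k) (c j - n - m + t),
        (if Q k r y then (4 : ℝ) ^ k else 0) := by
    intro k hk r hr
    have hkj : k ≤ j := by have := mem_range.1 hk; omega
    have ej : k + (j - k) = j := by omega
    have hmap : ∀ s ∈ iv (j - k) m, ix (j - k) (c k - r - s) - (c j - n - m) ∈ Icc (-2 : ℤ) 2 := by
      intro s hs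
      have h := third_cell (k := k) hc hr hs
      rwa [ej] at h
    rw [← sum_fiberwise_of_maps_to hmap]
    refine sum_le_sum fun t _ => ?_
    have hinj : Set.InjOn (fun s : ℤ => c k - r - s)
        ((iv (j - k) m).filter fun s => ix (j - k) (c k - r - s) - (c j - n - m) = t : Finset ℤ) := by
      intro a _ b _ h
      simp only at h
      linarith
    rw [← sum_image (f := fun y => if Q k r y then (4 : ℝ) ^ k else 0) hinj]
    refine sum_le_sum_of_subset_of_nonneg ?_ fun y _ _ => ?_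
    · intro y hy
      rw [mem_image] at hy
      obtain ⟨s, hs, rfl⟩ := hy
      rw [mem_filter] at hs
      refine mem_iv.2 ?_
      linarith [hs.2]
    · split_ifs
      · positivity
      · exact le_rfl
  calc _ ≤ ∑ k ∈ range (j + 1), ∑ r ∈ iv (j - k) n, ∑ t ∈ Icc (-2 : ℤ) 2,
        ∑ y ∈ iv (j - k) (c j - n - m + t), (if Q k r y then (4 : ℝ) ^ k else 0) :=
        sum_le_sum fun k hk => sum_le_sum fun r hr => one k hk r hr
    _ = ∑ t ∈ Icc (-2 : ℤ) 2, ∑ k ∈ range (j + 1), ∑ r ∈ iv (j - k) n,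
        ∑ y ∈ iv (j - k) (c j - n - m + t), (if Q k r y then (4 : ℝ) ^ k else 0) := by
        rw [sum_comm]
        refine sum_congr rfl fun k _ => ?_
        rw [sum_comm]
    _ ≤ ∑ t ∈ Icc (-2 : ℤ) 2, B * 4 ^ j := sum_le_sum fun t _ => hB n (c j - n - m + t)
    _ = 5 * B * 4 ^ j := by
        have h5 : (Icc (-2 : ℤ) 2).card = 5 := by decide
        rw [sum_const, h5, nsmul_eq_mul]
        push_cast
        ring

/-- the same, the roles of the two visible faces exchanged -/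
theorem pack_plane' {c : ℕ → ℤ} (hc : Pl c) {B : ℝ} {Q : ℕ → ℤ → ℤ → Prop} {j : ℕ}
    (hB : ∀ n q, ∑ k ∈ range (j + 1), ∑ r ∈ iv (j - k) n, ∑ y ∈ iv (j - k) q,
      (if Q k r y then (4 : ℝ) ^ k else 0) ≤ B * 4 ^ j) (n m : ℤ) :
    ∑ k ∈ range (j + 1), ∑ s ∈ iv (j - k) n, ∑ r ∈ iv (j - k) m,
      (if Q k r (c k - r - s) then (4 : ℝ) ^ k else 0) ≤ 5 * B * 4 ^ j := by
  refine le_trans (le_of_eq ?_) (pack_plane hc hB m n)
  exact sum_congr rfl fun k _ => sum_comm

end

end Vale.Agent.P141.H498
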