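import Vale.Agent.P141.H358.AliveF

/-!
# P141, line (A), top: the stop in the label vertex alone

`X` a set of label points such that `u` and `v` vanish off `X`.  A cube is stopped if the density of
`X` on the `x₁`-cell of the cube or of an ancestor is more than `M`.

* `ind X`, `avg_ind` : the function for `H358.stF`;
* `hcol_of_alive` : on an alive cube every column of a function supported on `X`, of height one,
  is at most `M`;
* `top_num` : the natural price of the cubes stopped by `cst`, in powers of `t`;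
* `x1_num` : the natural price of the cubes stopped by `X`, in powers of `t`;
* `two_num` : both together, from `cosF` to the alive nodes.
-/

namespace Vale.Agent.P141.H498

open Finset
open Vale.Agent.P141.PL (Pt ix cx)
open Vale.Agent.P141.PL.H315 (iv Tri A2 avg avg_nonneg cube3 card_cube3 atm)
open Vale.Agent.P141.PL.H317 (crn)
open Vale.Agent.P141.H48 (US ES cst cst_crn Pos2 prE cG cG_nonneg Lam0 one_le_Lam0 genSt)
open Vale.Agent.P141.H572 (cosF)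
open Vale.Agent.P141.H579 (cosA nrt gR rest_comp comp_cosF)
open Vale.Agent.P141.H136 (comp)
open Vale.Agent.P141.H971 (Cen)
open Vale.Agent.P141.H922 (wP wP_nonneg)
open Vale.Agent.P141.H305 (prE_le wP_cen)
open Vale.Agent.P141.H358 (stF bF avg_F_le rest_cosF2 wP_loc)

noncomputable section

open scoped Classical

/-! ### The density -/

/-- the indicator of a set of label points -/
def ind (X : ℤ → Prop) (p : Pt) : ℝ := if X p.1 then 1 else 0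

theorem ind_sq (X : ℤ → Prop) (p : Pt) : ind X p ^ 2 = if X p.1 then 1 else 0 := by
  unfold ind
  split_ifs <;> norm_num

/-- averages over a cube of functions of the first variable -/
theorem avg_fst (m : ℕ) (z : Pt) (f : ℤ → ℝ) :
    (avg (cube3 m z) fun p => f p.1) = avg (iv m z.1) f := by
  unfold Vale.Agent.P141.PL.H315.cube3
  rw [H550.avg_prod]
  refine H550.avg_congr fun a _ => ?_
  have h : ((iv m z.2.1 ×ˢ iv m z.2.2).card : ℝ) ≠ 0 := by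
    rw [card_product, Vale.Agent.P141.PL.H315.card_iv, Vale.Agent.P141.PL.H315.card_iv]
    positivity
  unfold Vale.Agent.P141.PL.H315.avg
  simp only [sum_const, nsmul_eq_mul]
  rw [← mul_assoc, inv_mul_cancel₀ h, one_mul]

theorem avg_ind (X : ℤ → Prop) (m : ℕ) (z : Pt) :
    (avg (cube3 m z) fun p => ind X p ^ 2) = avg (iv m z.1) fun a => if X a then (1 : ℝ) else 0 := by
  simp only [ind_sq]
  exact avg_fst m z fun a => if X a then (1 : ℝ) else 0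

/-- **The columns on an alive cube.** -/
theorem hcol_of_alive {X : ℤ → Prop} {M : ℝ} {K k m : ℕ} {z : Pt}
    (h : ¬ stF M (ind X) K k z) (h1 : k ≤ m) (h2 : m < K) {f : ℤ → ℝ}
    (hf : ∀ a ∈ iv m z.1, f a ≤ if X a then 1 else 0) : avg (iv m z.1) f ≤ M := by
  refine (H550.avg_mono hf).trans ?_
  rw [← avg_ind]
  exact avg_F_le h h1 h2

/-- the same on the root, when the density of `X` on the root is at most `M` -/
theorem hcol_root {X : ℤ → Prop} {M : ℝ} {K : ℕ} {z x : Pt} (hz : z.1 ∈ iv K x.1)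
    (hX : (avg (iv K x.1) fun a => if X a then (1 : ℝ) else 0) ≤ M) {f : ℤ → ℝ}
    (hf : ∀ a ∈ iv K z.1, f a ≤ if X a then 1 else 0) : avg (iv K z.1) f ≤ M := by
  have e : iv K z.1 = iv K x.1 := Vale.Agent.P141.PL.H315.iv_eq hz
  rw [e] at hf ⊢
  exact (H550.avg_mono hf).trans hX

/-- **The columns on an alive cube**, every scale up to the root. -/
theorem hcol_all {X : ℤ → Prop} {M : ℝ} {K k m : ℕ} {z x : Pt} (hz : z.1 ∈ iv K x.1)
    (hX : (avg (iv K x.1) fun a => if X a then (1 : ℝ) else 0) ≤ M)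
    (h : ¬ stF M (ind X) K k z) (h1 : k ≤ m) (h2 : m ≤ K) {f : ℤ → ℝ}
    (hf : ∀ a ∈ iv m z.1, f a ≤ if X a then 1 else 0) : avg (iv m z.1) f ≤ M := by
  rcases h2.lt_or_eq with h3 | h3
  · exact hcol_of_alive h h1 h3 hf
  · subst h3
    exact hcol_root hz hX hf

/-! ### The numbers -/

/-- **The cubes stopped by `cst`**, in powers of `t`. -/
theorem top_num {d : ℝ} (hdp : 0 < d) (hd1 : d ≤ 1) {Kt e cP : ℝ} (hK : 0 < Kt) (he : 1 ≤ e)
    (hcP : 0 ≤ cP) :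
    ∃ C1 : ℝ, 0 ≤ C1 ∧ ∀ c : ℝ, 0 ≤ c → c ≤ d / 960 →
    ∀ t : ℝ, 0 < t → t ≤ 1 → ∀ (n : ℕ) (ez : ℝ) (F1 F2 F3 : ℕ → Pt → ℝ),
      US n (Kt * t ^ (1 - c)) e cP F1 → US n (Kt * t ^ (1 - c)) e cP F3 → ES n ez cP F2 →
    ∀ o : ℤ, o = 1 ∨ o = -1 → ∀ K ≤ n, ∀ (x : Pt)
      (V : Type) [NormedAddCommGroup V] [InnerProductSpace ℝ V] [FiniteDimensional ℝ V]
      (s W : ℝ) (g : ℤ → ℤ → ℝ) (u v : ℤ → ℤ → V), 0 < s →
      Cen (iv K x.2.1) (iv K x.2.2) (iv K x.1) 1 √s 1 W g u v →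
      cosF o K x (comp (fun p => g p.1 p.2) u v) (fun k _ => F1 k) (fun k _ => F2 k)
          (fun k _ => F3 k) ≤
        cosA (fun k z => ¬ cst (t ^ (-d)) (nrt (fun p => g p.1 p.2) u v) K k z) o K x
          (comp (fun p => g p.1 p.2) u v) (fun k _ => F1 k) (fun k _ => F2 k) (fun k _ => F3 k) +
        C1 * (t ^ (1 + d / 480) * s ^ (5 / 4 : ℝ) * √ez * 8 ^ K) := by
  set ε : ℝ := d / 1920 with hεd
  have hε : 0 < ε := by positivity
  have hε' : ε ≤ 1 / 4 := by rw [hεd]; linarith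
  obtain ⟨Cn, hCn, hnat⟩ := nat_price hε hε' hK he hcP
  refine ⟨6 * Cn * 1153 ^ 3 * 3, by positivity, ?_⟩
  intro c hc hcc t ht ht1 n ez F1 F2 F3 h1 h3 h2 o ho K hKn x V _ _ _ s W g u v hs hcen
  -- the threshold
  set l : ℝ := t ^ (-d / 4) with hl
  have hl1 : 1 ≤ l := Real.one_le_rpow_of_pos_of_le_one_of_nonpos ht ht1 (by linarith)
  have hl4 : l ^ 4 = t ^ (-d) := by
    rw [hl, ← Real.rpow_natCast (t ^ (-d / 4)) 4, ← Real.rpow_mul ht.le]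
    congr 1
    push_cast
    ring
  set P : ℝ := Cn * (t ^ (1 - c - 2 * ε) * √ez) with hP
  have hP0 : 0 ≤ P := by positivity
  have rest := rest_comp hl1 hP0 o K x (fun p => g p.1 p.2) u v (fun k _ => F1 k)
    (fun k _ => F2 k) (fun k _ => F3 k) fun K' hK' x' _ a =>
      hnat c hc t ht ht1 n ez F1 F2 F3 h1 h3 h2 o ho K' (by omega) x' a
  rw [hl4] at rest
  refine rest.trans (add_le_add le_rfl ?_)
  have hw := wP_cen hs hcen
  have hg : gR l = 1153 ^ 3 * t ^ (d / 240) := by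
    unfold gR
    rw [hl, ← Real.rpow_mul ht.le]
    congr 2
    ring
  have e2 : t ^ (1 - c - 2 * ε) * t ^ (d / 240) ≤ t ^ (1 + d / 480) := by
    rw [← Real.rpow_add ht]
    refine Real.rpow_le_rpow_of_exponent_ge ht ht1 ?_
    rw [hεd]
    linarith
  have h5 : 0 ≤ 6 * P * gR l := by
    rw [hg]
    positivity
  calc 6 * P * gR l * wP 1 (cube3 K x) (nrt (fun p => g p.1 p.2) u v)
      ≤ 6 * P * gR l * (3 * (8 ^ K * s ^ (5 / 4 : ℝ))) := mul_le_mul_of_nonneg_left hw h5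
    _ = 6 * Cn * 1153 ^ 3 * 3 * ((t ^ (1 - c - 2 * ε) * t ^ (d / 240)) * s ^ (5 / 4 : ℝ) * √ez *
        8 ^ K) := by rw [hg, hP]; ring
    _ ≤ _ := by gcongr

/-- **The cubes stopped by any `H358.stF`**, in powers of `t`: root average at most `B`, threshold
`M` with `B ≤ t ^ b M`. -/
theorem st_num {b : ℝ} (hbp : 0 < b) (hb1 : b ≤ 1) {Kt e cP : ℝ} (hK : 0 < Kt) (he : 1 ≤ e)
    (hcP : 0 ≤ cP) :
    ∃ C2 : ℝ, 0 ≤ C2 ∧ ∀ c : ℝ, 0 ≤ c → c ≤ b / 8 → ∀ d : ℝ, 0 < d → d ≤ b / 8 →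
    ∀ t : ℝ, 0 < t → t ≤ 1 → ∀ (n : ℕ) (ez : ℝ) (F1 F2 F3 : ℕ → Pt → ℝ),
      US n (Kt * t ^ (1 - c)) e cP F1 → US n (Kt * t ^ (1 - c)) e cP F3 → ES n ez cP F2 →
    ∀ o : ℤ, o = 1 ∨ o = -1 → ∀ K ≤ n, ∀ (x : Pt)
      (V : Type) [NormedAddCommGroup V] [InnerProductSpace ℝ V] [FiniteDimensional ℝ V]
      (s W : ℝ) (g : ℤ → ℤ → ℝ) (u v : ℤ → ℤ → V), 0 < s →
      Cen (iv K x.2.1) (iv K x.2.2) (iv K x.1) 1 √s 1 W g u v →
    ∀ (M B : ℝ) (F : Pt → ℝ), 0 < M → B ≤ t ^ b * M → (avg (cube3 K x) fun p => F p ^ 2) ≤ B →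
      cosA (fun k z => ¬ cst (t ^ (-d)) (nrt (fun p => g p.1 p.2) u v) K k z) o K x
          (comp (fun p => g p.1 p.2) u v) (fun k _ => F1 k) (fun k _ => F2 k) (fun k _ => F3 k) ≤
        cosA (fun k z => ¬ cst (t ^ (-d)) (nrt (fun p => g p.1 p.2) u v) K k z ∧ ¬ stF M F K k z)
          o K x (comp (fun p => g p.1 p.2) u v) (fun k _ => F1 k) (fun k _ => F2 k)
          (fun k _ => F3 k) +
        C2 * (t ^ (1 + b / 4) * s ^ (5 / 4 : ℝ) * √ez * 8 ^ K) := by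
  set ε : ℝ := b / 16 with hεd
  have hε : 0 < ε := by positivity
  have hε' : ε ≤ 1 / 4 := by rw [hεd]; linarith
  obtain ⟨Cn, hCn, hnat⟩ := nat_price hε hε' hK he hcP
  refine ⟨18 * Cn, by positivity, ?_⟩
  intro c hc hcc d hd hdd t ht ht1 n ez F1 F2 F3 h1 h3 h2 o ho K hKn x V _ _ _ s W g u v hs hcen
    M B F hM hBM hroot
  set Λ : ℝ := t ^ (-d) with hΛ
  have hΛ0 : 0 ≤ Λ := Real.rpow_nonneg ht.le _
  set P0 : ℝ := 18 * (Cn * (t ^ (1 - c - 2 * ε) * √ez)) * (Λ * s) ^ (5 / 4 : ℝ) with hP0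
  have hP0' : 0 ≤ P0 := by positivity
  have rest := rest_cosF2 (M := M) (B := B) (P0 := P0) (F := F) (K := K) (x := x) hM hP0'
    hroot
    (A := fun k z => ¬ cst Λ (nrt (fun p => g p.1 p.2) u v) K k z)
    (fun k z => not_congr (cst_crn Λ _ K k z))
    (fun k l z hkl h => H579.cst_up h hkl) o (comp (fun p => g p.1 p.2) u v)
    (fun k _ => F1 k) (fun k _ => F2 k) (fun k _ => F3 k) fun K' hK' x' hx' hA _ => by
      have h5 := comp_cosF (P := Cn * (t ^ (1 - c - 2 * ε) * √ez)) (by positivity) o K' x'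
        (fun p => g p.1 p.2) u v (fun k _ => F1 k) (fun k _ => F2 k) (fun k _ => F3 k)
        fun a' => hnat c hc t ht ht1 n ez F1 F2 F3 h1 h3 h2 o ho K' (by omega) x' a'
      refine h5.trans ?_
      have h6 := wP_loc hs hΛ0 hcen hK'.le hx' hA
      have h7 : 0 ≤ 6 * (Cn * (t ^ (1 - c - 2 * ε) * √ez)) := by positivity
      refine (mul_le_mul_of_nonneg_left h6 h7).trans (le_of_eq ?_)
      rw [hP0]
      ring
  refine rest.trans (add_le_add le_rfl ?_)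
  have e1 : B / M ≤ t ^ b := by
    rw [div_le_iff₀ hM]
    exact hBM
  have e3 : t ^ (1 - c - 2 * ε) * Λ ^ (5 / 4 : ℝ) * t ^ b ≤ t ^ (1 + b / 4) := by
    rw [hΛ, ← Real.rpow_mul ht.le, ← Real.rpow_add ht, ← Real.rpow_add ht]
    refine Real.rpow_le_rpow_of_exponent_ge ht ht1 ?_
    rw [hεd]
    linarith
  calc P0 * (B / M) * 8 ^ K ≤ P0 * t ^ b * 8 ^ K := by gcongr
    _ = 18 * Cn * ((t ^ (1 - c - 2 * ε) * Λ ^ (5 / 4 : ℝ) * t ^ b) * s ^ (5 / 4 : ℝ) * √ez *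
          8 ^ K) := by
        rw [hP0, Real.mul_rpow hΛ0 hs.le]
        ring
    _ ≤ _ := by gcongr

/-! ### The two statements -/

/-- **CE1m**, normalised data: `u` and `v` vanish off a set `X` of label points of density at most
`t ^ (a - 2) √s`. -/
def CE1m : Prop :=
  ∀ a : ℝ, 0 < a → ∃ gam c1 : ℝ, 0 < gam ∧ 0 < c1 ∧ ∀ c : ℝ, 0 ≤ c → c ≤ c1 →
  ∀ Kt e cP L : ℝ, 0 < Kt → 1 ≤ e → 0 ≤ cP → 0 ≤ L → ∃ C : ℝ, 0 ≤ C ∧
  ∀ t : ℝ, 0 < t → t ≤ 1 → ∀ (n : ℕ) (ez : ℝ) (F1 F2 F3 : ℕ → Pt → ℝ),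
    US n (Kt * t ^ (1 - c)) e cP F1 → US n (Kt * t ^ (1 - c)) e cP F3 → ES n ez cP F2 →
  ∀ o : ℤ, o = 1 ∨ o = -1 → ∀ K ≤ n, ∀ (x : Pt)
    (V : Type) [NormedAddCommGroup V] [InnerProductSpace ℝ V] [FiniteDimensional ℝ V]
    (s : ℝ) (g : ℤ → ℤ → ℝ) (u v : ℤ → ℤ → V) (X : ℤ → Prop), 0 < s →
    Cen (iv K x.2.1) (iv K x.2.2) (iv K x.1) 1 √s 1 (L * t ^ (2 - c) * √s) g u v →
    (∀ z, ¬ X z → ∀ y, u z y = 0) → (∀ z, ¬ X z → ∀ y, v z y = 0) →
    (avg (iv K x.1) fun z => if X z then (1 : ℝ) else 0) ≤ t ^ (a - 2) * √s →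
    cosF o K x (comp (fun p => g p.1 p.2) u v) (fun k _ => F1 k) (fun k _ => F2 k)
        (fun k _ => F3 k) ≤ C * (t ^ (1 + gam) * s ^ (5 / 4 : ℝ) * √ez * 8 ^ K)

/-- **CE1mx**: the nodes which are alive, `not cst` and the density of `X` at most
`t ^ (a - b - 2) √s` on the label cell of the node and of its ancestors. -/
def CE1mx : Prop :=
  ∀ a : ℝ, 0 < a → ∃ gam c1 d0 b0 : ℝ, 0 < gam ∧ 0 < c1 ∧ 0 < d0 ∧ 0 < b0 ∧
  ∀ b : ℝ, 0 < b → b ≤ b0 → ∀ c : ℝ, 0 ≤ c → c ≤ c1 → ∀ d : ℝ, 0 < d → d ≤ d0 →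
  ∀ Kt e cP L : ℝ, 0 < Kt → 1 ≤ e → 0 ≤ cP → 0 ≤ L → ∃ C : ℝ, 0 ≤ C ∧
  ∀ t : ℝ, 0 < t → t ≤ 1 → ∀ (n : ℕ) (ez : ℝ) (F1 F2 F3 : ℕ → Pt → ℝ),
    US n (Kt * t ^ (1 - c)) e cP F1 → US n (Kt * t ^ (1 - c)) e cP F3 → ES n ez cP F2 →
  ∀ o : ℤ, o = 1 ∨ o = -1 → ∀ K ≤ n, ∀ (x : Pt)
    (V : Type) [NormedAddCommGroup V] [InnerProductSpace ℝ V] [FiniteDimensional ℝ V]
    (s : ℝ) (g : ℤ → ℤ → ℝ) (u v : ℤ → ℤ → V) (X : ℤ → Prop), 0 < s →
    Cen (iv K x.2.1) (iv K x.2.2) (iv K x.1) 1 √s 1 (L * t ^ (2 - c) * √s) g u v →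
    (∀ z, ¬ X z → ∀ y, u z y = 0) → (∀ z, ¬ X z → ∀ y, v z y = 0) →
    (avg (iv K x.1) fun z => if X z then (1 : ℝ) else 0) ≤ t ^ (a - 2) * √s →
    cosA (fun k z => ¬ cst (t ^ (-d)) (nrt (fun p => g p.1 p.2) u v) K k z ∧
          ¬ stF (t ^ (a - b - 2) * √s) (ind X) K k z) o K x
        (comp (fun p => g p.1 p.2) u v) (fun k _ => F1 k) (fun k _ => F2 k) (fun k _ => F3 k) ≤
      C * (t ^ (1 + gam) * s ^ (5 / 4 : ℝ) * √ez * 8 ^ K)

/-- **The two stops.** -/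
theorem ce1m_of_x (H : CE1mx) : CE1m := by
  intro a ha
  obtain ⟨gam, c1, d0, b0, hgam, hc1, hd0, hb0, H⟩ := H a ha
  set b : ℝ := min b0 1 with hbd
  have hb : 0 < b := lt_min hb0 one_pos
  have hb1 : b ≤ 1 := min_le_right _ _
  set d : ℝ := min d0 (b / 8) with hdd
  have hd : 0 < d := lt_min hd0 (by positivity)
  have hdb : d ≤ b / 8 := min_le_right _ _
  have hd1 : d ≤ 1 := by linarith
  set g0 : ℝ := min gam (d / 480) with hg0
  refine ⟨g0, min c1 (d / 960), lt_min hgam (by positivity), lt_min hc1 (by positivity),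
    fun c hc hcc Kt e cP L hK he hcP hL => ?_⟩
  obtain ⟨C, hC, H⟩ := H b hb (min_le_left _ _) c hc (hcc.trans (min_le_left _ _)) d hd
    (min_le_left _ _) Kt e cP L hK he hcP hL
  obtain ⟨C1, hC1, T1⟩ := top_num hd hd1 hK he hcP
  obtain ⟨C2, hC2, T2⟩ := st_num hb hb1 hK he hcP
  refine ⟨C + C2 + C1, by positivity, ?_⟩
  intro t ht ht1 n ez F1 F2 F3 h1 h3 h2 o ho K hKn x V _ _ _ s g u v X hs hcen hu hv hX
  have hcd : c ≤ d / 960 := hcc.trans (min_le_right _ _)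
  have k1 := T1 c hc hcd t ht ht1 n ez F1 F2 F3 h1 h3 h2 o ho K hKn x V s _ g u v hs hcen
  have k3 := H t ht ht1 n ez F1 F2 F3 h1 h3 h2 o ho K hKn x V s g u v X hs hcen hu hv hX
  have hsq : 0 < √s := Real.sqrt_pos.2 hs
  have hM : 0 < t ^ (a - b - 2) * √s := mul_pos (Real.rpow_pos_of_pos ht _) hsq
  have hBM : t ^ (a - 2) * √s ≤ t ^ b * (t ^ (a - b - 2) * √s) := by
    rw [← mul_assoc, ← Real.rpow_add ht]
    refine le_of_eq ?_
    congr 2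
    ring
  have k2 := T2 c hc (by linarith) d hd hdb t ht ht1 n ez F1 F2 F3 h1 h3 h2 o ho K hKn x V s _ g u v
    hs hcen (t ^ (a - b - 2) * √s) (t ^ (a - 2) * √s) (ind X) hM hBM (by rw [avg_ind]; exact hX)
  have m : ∀ q : ℝ, g0 ≤ q → t ^ (1 + q) * s ^ (5 / 4 : ℝ) * √ez * 8 ^ K ≤
      t ^ (1 + g0) * s ^ (5 / 4 : ℝ) * √ez * 8 ^ K := by
    intro q hq
    have := Real.rpow_le_rpow_of_exponent_ge ht ht1 (show 1 + g0 ≤ 1 + q by linarith)
    gcongr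
  have m1 := mul_le_mul_of_nonneg_left (m (d / 480) (min_le_right _ _)) hC1
  have m2 := mul_le_mul_of_nonneg_left (m (b / 4) ((min_le_right _ _).trans (by linarith))) hC2
  have m3 := mul_le_mul_of_nonneg_left (m gam (min_le_left _ _)) hC
  calc _ ≤ _ := k1
    _ ≤ _ := add_le_add (k2.trans (add_le_add k3 le_rfl)) le_rfl
    _ ≤ C * (t ^ (1 + g0) * s ^ (5 / 4 : ℝ) * √ez * 8 ^ K) +
          C2 * (t ^ (1 + g0) * s ^ (5 / 4 : ℝ) * √ez * 8 ^ K) +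
          C1 * (t ^ (1 + g0) * s ^ (5 / 4 : ℝ) * √ez * 8 ^ K) :=
        add_le_add (add_le_add m3 m2) m1
    _ = _ := by ring

end

end Vale.Agent.P141.H498
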